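import Vale.Agent.P330.H780.FFT

/-!
# The operators of the commands (`H16.Kinds`) in closed form

`preOp_eq` (S3), `chOp_eq`, `sum_dl` (S4), `LOp_eq` (S5), `s_bits_lt` (S6), `car_*`, `bor_*` (S8),
`rhs_masks` (S9), `ldeOp_eq`, `mem_RS_invOp` (S10), and the same in the form `opr`.
-/

namespace Vale.Agent.P330.H16

open Finset

variable {κ : ℕ} {F : Type} [Field F]

theorem getD_map_range (f : ℕ → F) (m j : ℕ) (hj : j < m) :
    ((List.range m).map f).getD j 0 = f j := by
  simp [List.getD_eq_getElem?_getD, hj]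

/-! ### (S3) -/

theorem preR_congr {V : Ct κ F} {h h' : ℕ → F} {m : ℕ} (hh : ∀ j < m, h j = h' j) :
    preR V h m = preR V h' m := by
  induction m with
  | zero => rfl
  | succ m ih =>
    funext x
    simp only [preR]
    rw [ih fun j hj => hh j (by omega), hh m (by omega)]

theorem preOp_congr {k : ℕ} {h h' : ℕ → F} (hh : ∀ j < k + 1, h j = h' j) (u : Ct κ F) :
    preOp k h u = preOp k h' u := by
  funext x
  simp only [preOp]
  rw [preR_congr fun j hj => hh j (by omega), hh k (by omega)]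

/-- **(S3)** -/
theorem preOp_eq (R : RSys κ F) (hκ : 0 < κ) {k t : ℕ} (ht : t ≤ 2 ^ k) {h : ℕ → F}
    (hh : ∀ j < k + 1, h j = bF F (t.testBit j)) (u : Ct κ F) : preOp k h u = pre t u := by
  rw [preOp_congr hh]
  funext x
  exact preR_pre R hκ ht u x

theorem opr_pre (R : RSys κ F) (hκ : 0 < κ) {k t : ℕ} (ht : t ≤ 2 ^ k) (off : Bool → ℕ)
    (u : Ct κ F) :
    opr k off R .pre ((List.range (k + 1)).map fun j => bF F (t.testBit j)) u = pre t u :=
  preOp_eq R hκ ht (fun j hj => getD_map_range _ _ j hj) u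

/-! ### (S4) -/

theorem chOp_eq (R : RSys κ F) (hκ : 0 < κ) {k a : ℕ} (hk : k ≤ κ) (ha : a < 2 ^ k) {v : ℕ → F}
    (hv : ∀ j < k, v j = bF F (a.testBit j)) (u : Ct κ F) : chOp k v u = dl a u := by
  rw [← opIter_dl R hκ (ha.trans_le (Nat.pow_le_pow_right (by norm_num) hk))]
  funext x
  rw [opIter_mul (fun j y => 1 + bx j y + bF F (a.testBit j)), list_prod_range]
  unfold chOp
  congr 1
  refine Finset.prod_congr rfl fun j _ => ?_
  split_ifs with h
  · rw [hv j h]
  · rw [Nat.testBit_lt_two_pow (ha.trans_le (Nat.pow_le_pow_right (by norm_num) (not_lt.1 h)))]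
    simp

theorem chOp_zero (R : RSys κ F) (hκ : 0 < κ) (v : ℕ → F) (u : Ct κ F) :
    chOp 0 v u = dl 0 u :=
  chOp_eq R hκ (Nat.zero_le _) (by norm_num) (fun j hj => absurd hj (by omega)) u

theorem dl_eq {a : ℕ} (ha : a < 2 ^ κ) (u : Ct κ F) :
    dl a u = fun x => if x = pt κ a then u (pt κ a) else 0 := by
  funext x
  unfold dl
  by_cases h : num x = a
  · have h2 : x = pt κ a := by rw [← h, pt_num]
    rw [if_pos h, if_pos h2, ← h2]
  · have h2 : x ≠ pt κ a := fun h' => h (by rw [h', num_pt ha])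
    rw [if_neg h, if_neg h2]

theorem opr_ch (R : RSys κ F) (hκ : 0 < κ) {k a : ℕ} (hk : k ≤ κ) (ha : a < 2 ^ k)
    (off : Bool → ℕ) (u : Ct κ F) :
    opr k off R .ch ((List.range k).map fun j => bF F (a.testBit j)) u = dl a u :=
  chOp_eq R hκ hk ha (fun j hj => getD_map_range _ _ j hj) u

theorem opr_rd0 (R : RSys κ F) (hκ : 0 < κ) {k : ℕ} (off : Bool → ℕ) (vs : List F) (u : Ct κ F) :
    opr k off R .rd0 vs u = dl 0 u := chOp_zero R hκ _ u

/-- The sum over all points of the part of `u` at the slot `a`. -/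
theorem opr_sum_dl (R : RSys κ F) {k a : ℕ} (off : Bool → ℕ) (vs : List F) (ha : a < 2 ^ κ)
    (u : Ct κ F) : opr k off R .sum vs (dl a u) = fun _ => u (pt κ a) := by
  funext _
  exact sum_dl ha u

/-! ### (S5), (S6) -/

theorem LOp_eq (R : RSys κ F) {k p : ℕ} {S : ℕ → F} (hS : ∀ j < k, S j = R.s j (pt κ p))
    (u : Ct κ F) : LOp R k S u = fun x => R.L k p x * u x := by
  funext x
  unfold LOp RSys.L
  congr 1
  exact Finset.prod_congr rfl fun j hj => by rw [hS j (mem_range.1 hj)]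

theorem opr_LL (R : RSys κ F) {k p : ℕ} (off : Bool → ℕ) (u : Ct κ F) :
    opr k off R .LL ((List.range k).map fun j => R.s j (pt κ p)) u =
      fun x => R.L k p x * u x :=
  LOp_eq R (fun j hj => getD_map_range _ _ j hj) u

theorem s_bits_lt (R : RSys κ F) {k p : ℕ} (hk : k ≤ κ) (hp : p < 2 ^ k) {v : ℕ → F}
    (hv : ∀ i < k, v i = bF F (p.testBit i)) (j : ℕ) :
    ∑ i ∈ range k, R.s j (e κ i) * v i = R.s j (pt κ p) := by
  rw [← R.s_bits j p]
  have hsub : range k ⊆ range κ := Finset.range_subset_range.2 hk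
  rw [← Finset.sum_subset hsub (f := fun i => R.s j (e κ i) * bF F (p.testBit i))]
  · exact Finset.sum_congr rfl fun i hi => by rw [hv i (mem_range.1 hi)]
  · intro i _ hi
    rw [Nat.testBit_lt_two_pow (hp.trans_le (Nat.pow_le_pow_right (by norm_num)
      (not_lt.1 fun h => hi (mem_range.2 h))))]
    simp

/-- The constant content which is the bit `i` of the slot `p`. -/
theorem sum_bx_dl_lt {p k : ℕ} (hk : k ≤ κ) (hp : p < 2 ^ k) (i : ℕ) :
    ∑ x : V2 κ, bx i x * dl (F := F) p (fun _ => 1) x = bF F (p.testBit i) :=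
  sum_bx_dl (hp.trans_le (Nat.pow_le_pow_right (by norm_num) hk)) i

/-! ### (S8) -/

theorem car_prod {v c : ℕ → F} {m : ℕ} (h0 : c 0 = 1) (hs : ∀ j < m, c (j + 1) = v j * c j) :
    ∀ j ≤ m, c j = ∏ i ∈ range j, v i := by
  intro j hj
  induction j with
  | zero => simpa using h0
  | succ j ih => rw [hs j (by omega), ih (by omega), Finset.prod_range_succ, mul_comm]

/-- **(S8)** The bits of `t + 1`. -/
theorem car_succ (R : RSys κ F) (hκ : 0 < κ) {t m : ℕ} {v c : ℕ → F}
    (hv : ∀ j < m, v j = bF F (t.testBit j)) (h0 : c 0 = 1)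
    (hs : ∀ j, j + 1 < m → c (j + 1) = v j * c j) {j : ℕ} (hj : j < m) :
    v j + c j = bF F ((t + 1).testBit j) := by
  have h1 : c j = ∏ i ∈ range j, v i :=
    car_prod (m := m - 1) h0 (fun i hi => hs i (by omega)) j (by omega)
  rw [bF_succ R hκ, h1, hv j hj]
  congr 1
  exact Finset.prod_congr rfl fun i hi => hv i (by have := mem_range.1 hi; omega)

theorem bor_prod {v b : ℕ → F} {m : ℕ} (h0 : b 0 = 1) (hs : ∀ j < m, b (j + 1) = (1 + v j) * b j) :
    ∀ j ≤ m, b j = ∏ i ∈ range j, (1 + v i) := by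
  intro j hj
  induction j with
  | zero => simpa using h0
  | succ j ih => rw [hs j (by omega), ih (by omega), Finset.prod_range_succ, mul_comm]

/-- **(S8)** The bits of `t - 1`. -/
theorem bor_pred (R : RSys κ F) (hκ : 0 < κ) {t m : ℕ} (ht : 0 < t) {v b : ℕ → F}
    (hv : ∀ j < m, v j = bF F (t.testBit j)) (h0 : b 0 = 1)
    (hs : ∀ j, j + 1 < m → b (j + 1) = (1 + v j) * b j) {j : ℕ} (hj : j < m) :
    v j + b j = bF F ((t - 1).testBit j) := by
  have h1 : b j = ∏ i ∈ range j, (1 + v i) :=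
    bor_prod (m := m - 1) h0 (fun i hi => hs i (by omega)) j (by omega)
  rw [bF_pred R hκ ht, h1, hv j hj]
  congr 1
  exact Finset.prod_congr rfl fun i hi => by rw [hv i (by have := mem_range.1 hi; omega)]

/-- **(S8)** Comparison with zero. -/
theorem bor_zero (R : RSys κ F) (hκ : 0 < κ) {t m : ℕ} (ht : t < 2 ^ m) {v b : ℕ → F}
    (hv : ∀ j < m, v j = bF F (t.testBit j)) (h0 : b 0 = 1)
    (hs : ∀ j < m, b (j + 1) = (1 + v j) * b j) :
    b m = bF F (decide (t = 0)) := by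
  rw [bor_prod h0 hs m le_rfl, ← bF_eq_zero R hκ ht]
  exact Finset.prod_congr rfl fun i hi => by rw [hv i (mem_range.1 hi)]

/-! ### (S9) -/

theorem msk_isCopy_eq (M : MP) (R : RSys M.κ F) (hκ : 0 < M.κ) (u f g : Ct M.κ F) (x : V2 M.κ) :
    msk M.isIn u x + msk M.isCopy f x + msk isNand g x =
      pre (4 * M.n) (msk (fun x => decide (x % 4 = 0)) fun y => u y + f y) x +
        msk (fun x => decide (x % 4 = 0)) f x + msk (fun x => decide (x % 4 = 1)) f x +
        msk isNand g x := by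
  have h : msk M.isIn u x + msk M.isCopy f x =
      msk (fun x => decide (x % 4 = 1)) f x + (msk (fun x => decide (x % 4 = 0)) f x +
      pre (4 * M.n) (msk (fun x => decide (x % 4 = 0)) fun y => f y + u y) x) :=
    MP.msk_isCopy_add M R hκ f u x
  have h2 : (fun y => f y + u y) = fun y => u y + f y := funext fun y => add_comm _ _
  rw [h, h2]
  ring

/-! ### (S10) -/

theorem ldeOp_eq (R : RSys κ F) (hκ : 0 < κ) {k : ℕ} (hk : k ≤ κ) (u : Ct κ F) :
    ldeOp R k u = R.ldeW k u := (ldeW_eq R hκ hk u).symm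

theorem mem_RS_invOp (R : RSys κ F) (hκ : 0 < κ) {k : ℕ} (hk : k ≤ κ) (u : Ct κ F) :
    u ∈ R.RS (2 ^ k) ↔ ∀ i, k ≤ i → i < κ → ∀ x, bx i x * invOp R u x = 0 := by
  rw [mem_RS_iff R hκ hk]
  exact forall_congr' fun i => forall_congr' fun _ => forall_congr' fun _ =>
    ⟨fun h x => congrFun h x, fun h => funext h⟩

theorem mem_RS_succ_invOp (R : RSys κ F) {k : ℕ} (hk : k + 1 ≤ κ) (u : Ct κ F) :
    u ∈ R.RS (2 ^ (k + 1)) ↔ ∀ i, k < i → i < κ → ∀ x, bx i x * invOp R u x = 0 :=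
  mem_RS_invOp R (by omega) hk u

end Vale.Agent.P330.H16
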