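import Vale.Agent.P330.H780.TopF

/-!
# The scalar arguments of the commands have constant contents
-/

set_option linter.unusedSectionVars false

namespace Vale.Agent.P330.H16

open Finset

variable {F : Type} [Field F]

/-- All commands have constant scalar arguments. -/
def AllOK {κ : ℕ} {N : Type} (σ : N → Ct κ F) (l : List (Cmd N (Kd F))) : Prop :=
  ∀ c ∈ l, ArgOK σ c

section

variable {κ : ℕ} {N : Type} {σ : N → Ct κ F}

theorem AllOK.nil : AllOK σ ([] : List (Cmd N (Kd F))) ↔ True := by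
  unfold AllOK; simp

theorem AllOK.cons {c : Cmd N (Kd F)} {l : List (Cmd N (Kd F))} :
    AllOK σ (c :: l) ↔ ArgOK σ c ∧ AllOK σ l := by
  unfold AllOK; simp

theorem AllOK.append {l l' : List (Cmd N (Kd F))} :
    AllOK σ (l ++ l') ↔ AllOK σ l ∧ AllOK σ l' := by
  unfold AllOK
  simp only [List.mem_append]
  exact ⟨fun h => ⟨fun c hc => h c (Or.inl hc), fun c hc => h c (Or.inr hc)⟩,
    fun h c hc => hc.elim (h.1 c) (h.2 c)⟩

theorem AllOK.range {n : ℕ} {f : ℕ → List (Cmd N (Kd F))} :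
    AllOK σ ((List.range n).flatMap f) ↔ ∀ a < n, AllOK σ (f a) := by
  unfold AllOK
  simp only [List.mem_flatMap, List.mem_range]
  exact ⟨fun h a ha c hc => h c ⟨a, ha, hc⟩, fun h c ⟨a, ha, hc⟩ => h a ha c hc⟩

theorem argOK_smul {o a b : N} : ArgOK σ (⟨o, .smul, [a, b]⟩ : Cmd N (Kd F)) ↔ Cst σ a := by
  constructor
  · rintro ⟨a', b', h1, h2⟩
    simp only [List.cons.injEq] at h1
    rw [h1.1]
    exact h2
  · exact fun h => ⟨a, b, rfl, h⟩

theorem argOK_un {o a : N} {m : UM} {l : List N} :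
    ArgOK σ (⟨o, .un m, a :: l⟩ : Cmd N (Kd F)) ↔ ∀ b ∈ l, Cst σ b := by
  constructor
  · rintro ⟨a', l', h1, h2⟩
    simp only [List.cons.injEq] at h1
    rw [h1.2]
    exact h2
  · exact fun h => ⟨a, l, rfl, h⟩

theorem argOK_lin {o : N} {l : List F} {as : List N} :
    ArgOK σ (⟨o, .lin l, as⟩ : Cmd N (Kd F)) ↔ True := iff_true_intro trivial

theorem argOK_pub {o : N} {q : ℕ} {as : List N} :
    ArgOK σ (⟨o, .pub q, as⟩ : Cmd N (Kd F)) ↔ True := iff_true_intro trivial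

theorem argOK_add {σ : Nm → Ct κ F} {o : Nm} {l : List Nm} :
    ArgOK σ (PP.add (F := F) o l) ↔ True := iff_true_intro trivial

theorem Cst.of {n : N} {a : F} (h : σ n = fun _ => a) : Cst σ n := ⟨a, h⟩

theorem cst_lin {n : N} {u : ℕ → N} {c : ℕ → F} {m : ℕ} (hu : ∀ i < m, Cst σ (u i))
    (h : σ n = fun x => ∑ i ∈ range m, c i * σ (u i) x) : Cst σ n := by
  refine ⟨∑ i ∈ range m, c i * σ (u i) 0, ?_⟩
  rw [h]
  funext x
  exact Finset.sum_congr rfl fun i hi => by rw [(hu i (mem_range.1 hi)).apply x]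

end

namespace PP

variable {p : PP F} {off : Bool → ℕ} {R : RSys p.κ F} {pub : ℕ → Ct p.κ F} {σ : Nm → Ct p.κ F}

/-! ### Raw equations of the packets -/

theorem U1_eqs {m : Bool} {s : ℕ} (h : Sol p.k off R pub σ (p.prU1 m s)) {i : ℕ} (hi : i < p.k) :
    σ (.px m s i) = (fun x => bx i x * σ (.g m s) x) ∧
    σ (.pi m s i) = fun _ => ∑ x, σ (.px m s i) x := by
  simp only [prU1, Sol.range, Sol.cons] at h
  have h := h i hi
  simp only [kdv, List.map_cons, List.map_nil, opr, List.headD_cons] at h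
  exact ⟨h.1, h.2.1⟩

theorem U2_eqs {m : Bool} {s : ℕ} (h : Sol p.k off R pub σ (p.prU2 m s)) {j : ℕ} (hj : j < p.k) :
    σ (.S m s j) = (fun x => ∑ i ∈ range p.k, p.sc j i * σ (.pi m s i) x) ∧
    σ (.S' m s j) = fun x => σ (.S m s j) x + p.sc j (p.dir s) * σ .one x := by
  simp only [prU2, Sol.range, Sol.cons] at h
  obtain ⟨h1, h2, -⟩ := h j hj
  constructor
  · rw [h1]
    simp only [kdv]
    rw [lcV_map]
    funext x
    rw [list_sum_range]
  · rw [h2]
    funext x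
    simp [kdv, lcV]

theorem A_eqs {m : Bool} (h : Sol p.k off R pub σ (p.prA m)) {j : ℕ} (hj : j < p.k) :
    σ (.SA m j) = (fun x => p.sc j 1 * σ .one x + ∑ i ∈ range p.k, p.sc j i * σ (ab m i) x) ∧
    σ (.SB m j) = fun x => σ (.SA m j) x + p.sc j 0 * σ .one x := by
  simp only [prA, Sol.range, Sol.cons] at h
  obtain ⟨h1, h2, -⟩ := h j hj
  constructor
  · rw [h1]
    simp only [kdv, List.map_cons, lcV]
    rw [lcV_map]
    funext x
    simp only [list_sum_range]
  · rw [h2]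
    funext x
    simp [kdv, lcV]

theorem E_eqs {m : Bool} (h : Sol p.k off R pub σ (prE m)) :
    σ (.an m 0) = (fun x => σ .one x + σ (ab m 0) x) ∧
    σ (.an m 1) = (fun x => σ .one x + σ (ab m 1) x) ∧
    σ (.e0 m) = (fun x => σ (.an m 0) 0 * σ (.an m 1) x) ∧
    σ (.e1 m) = fun x => σ (.an m 1) 0 * σ (ab m 0) x := by
  simp only [prE, add, Sol.cons, kdv_add] at h
  simp only [kdv, List.map_cons, List.map_nil, List.getD_cons_zero,
    List.getD_cons_succ, List.sum_cons, List.sum_nil, add_zero] at h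
  obtain ⟨h1, h2, h3, h4, -⟩ := h
  exact ⟨h1, h2, h3, h4⟩

theorem N1_eqs {m b : Bool} (h : Sol p.k off R pub σ (p.prN1 m b)) :
    σ (.rv m b) = chOp p.k (fun j => ((List.range p.k).map fun j => σ (ab m j) 0).getD j 0)
      (σ (.V b)) ∧
    σ (.v m b) = (fun _ => ∑ x, σ (.rv m b) x) ∧
    σ (.wd m b) = (fun x => σ (.v m b) 0 * σ (.g m 0) x) ∧
    σ (.wn m b) = fun x => σ (.w b) x + σ (.wd m b) x := by
  simp only [prN1, add, Sol.cons, kdv_add] at h
  simp only [kdv, List.map_cons, List.map_nil, List.getD_cons_zero, List.map_map, opr,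
    List.headD_cons, List.tail_cons,
    List.getD_cons_succ, List.sum_cons, List.sum_nil, add_zero] at h
  obtain ⟨h1, h2, h3, h4, -⟩ := h
  exact ⟨h1, h2, h3, h4⟩

/-! ### Constancy -/

theorem Eqs.cst (h : p.Eqs off R pub σ) (hκ : 0 < p.κ) (hk : 1 ≤ p.k) :
    (∀ m, ∀ j < p.k + 1, Cst σ (ab m j)) ∧
    (∀ m, ∀ s < p.L, ∀ j < p.k, Cst σ (.S m s j)) ∧
    (∀ m, ∀ s < p.L, ∀ j < p.k, Cst σ (.S' m s j)) ∧
    (∀ m, ∀ j < p.k, Cst σ (.SA m j)) ∧ (∀ m, ∀ j < p.k, Cst σ (.SB m j)) ∧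
    (∀ m, ∀ j < 2, Cst σ (.an m j)) ∧ (∀ m, Cst σ (.e0 m)) ∧ (∀ m, Cst σ (.e1 m)) ∧
    ∀ m b, Cst σ (.v m b) := by
  have hS := h.scal hκ
  have one : Cst σ .one := .of hS.one
  have hab : ∀ m, ∀ j < p.k + 1, Cst σ (ab m j) := by
    intro m j hj
    cases m
    · exact .of (hS.tc j hj)
    · exact .of (hS.tm j hj)
  have hpi : ∀ m, ∀ s < p.L, ∀ i < p.k, Cst σ (.pi m s i) := by
    intro m s hs i hi
    have := h.eU m s hs
    rw [prUs, Sol.append] at this
    exact .of (U1_eqs this.1 hi).2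
  have hSS : ∀ m, ∀ s < p.L, ∀ j < p.k, Cst σ (.S m s j) := by
    intro m s hs j hj
    have := h.eU m s hs
    rw [prUs, Sol.append, Sol.append] at this
    exact cst_lin (fun i hi => hpi m s hs i hi) (U2_eqs this.2.1 hj).1
  have hSS' : ∀ m, ∀ s < p.L, ∀ j < p.k, Cst σ (.S' m s j) := by
    intro m s hs j hj
    have := h.eU m s hs
    rw [prUs, Sol.append, Sol.append] at this
    refine ⟨σ (.S m s j) 0 + p.sc j (p.dir s) * σ .one 0, ?_⟩
    rw [(U2_eqs this.2.1 hj).2]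
    funext x
    rw [(hSS m s hs j hj).apply x, one.apply x]
  have hSA : ∀ m, ∀ j < p.k, Cst σ (.SA m j) := by
    intro m j hj
    refine ⟨p.sc j 1 * σ .one 0 + ∑ i ∈ range p.k, p.sc j i * σ (ab m i) 0, ?_⟩
    rw [(A_eqs (h.eA m) hj).1]
    funext x
    rw [one.apply x]
    congr 1
    exact Finset.sum_congr rfl fun i hi => by
      rw [(hab m i (by have := mem_range.1 hi; omega)).apply x]
  have hSB : ∀ m, ∀ j < p.k, Cst σ (.SB m j) := by
    intro m j hj
    refine ⟨σ (.SA m j) 0 + p.sc j 0 * σ .one 0, ?_⟩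
    rw [(A_eqs (h.eA m) hj).2]
    funext x
    rw [(hSA m j hj).apply x, one.apply x]
  have han : ∀ m, ∀ j < 2, Cst σ (.an m j) := by
    intro m j hj
    have h01 : j = 0 ∨ j = 1 := by omega
    rcases h01 with rfl | rfl
    · refine ⟨σ .one 0 + σ (ab m 0) 0, ?_⟩
      rw [(E_eqs (h.eE m)).1]
      funext x
      rw [one.apply x, (hab m 0 (by omega)).apply x]
    · refine ⟨σ .one 0 + σ (ab m 1) 0, ?_⟩
      rw [(E_eqs (h.eE m)).2.1]
      funext x
      rw [one.apply x, (hab m 1 (by omega)).apply x]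
  refine ⟨hab, hSS, hSS', hSA, hSB, han, fun m => ⟨σ (.an m 0) 0 * σ (.an m 1) 0, ?_⟩,
    fun m => ⟨σ (.an m 1) 0 * σ (ab m 0) 0, ?_⟩, fun m b => .of (N1_eqs (h.eN1 m b)).2.1⟩
  · rw [(E_eqs (h.eE m)).2.2.1]
    funext x
    rw [(han m 1 (by omega)).apply x]
  · rw [(E_eqs (h.eE m)).2.2.2]
    funext x
    rw [(hab m 0 (by omega)).apply x]

/-- **All commands of the program have constant scalar arguments.** -/
theorem Eqs.argOK (h : p.Eqs off R pub σ) (hκ : 0 < p.κ) (hk : 1 ≤ p.k) :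
    ∀ c ∈ p.prog, ArgOK σ c := by
  have hS := h.scal hκ
  obtain ⟨hab, hSS, hSS', hSA, hSB, han, he0, he1, hv⟩ := h.cst hκ hk
  have hzb : ∀ b, Cst σ (.zb b) := fun b => .of (hS.zb b)
  have hzc : Cst σ .zc := .of hS.zc
  have htc : ∀ j < p.k + 1, Cst σ (.tc j) := fun j hj => .of (hS.tc j hj)
  have htn : ∀ j < p.k + 1, Cst σ (.tn j) := fun j hj => .of (hS.tn j hj)
  have hone : Cst σ .one := .of hS.one
  have hpb : ∀ b ∈ (List.range (p.k + 1)).map Nm.pb, Cst σ b := by
    intro b hb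
    simp only [List.mem_map, List.mem_range] at hb
    obtain ⟨j, hj, rfl⟩ := hb
    exact .of (hS.pb j hj)
  have hhb : ∀ d, ∀ b ∈ (List.range (p.k + 1)).map (Nm.hb d), Cst σ b := by
    intro d b hb
    simp only [List.mem_map, List.mem_range] at hb
    obtain ⟨j, hj, rfl⟩ := hb
    cases d
    · exact .of (hS.hb0 j hj)
    · exact .of (hS.hb1 j hj)
  have hF : ∀ d, Flags σ d (σ .z 0) (σ (.t p.k) 0) (∏ i ∈ range (p.k + 1), (1 + σ (.t i) 0)) :=
    fun d => hS.flags (h.eF d)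
  have hcm : ∀ d b, Cst σ (.cm d b) := by
    intro d b
    rcases bool_eq_or b d with rfl | rfl
    · exact .of (hF _).cm1
    · exact .of (hF _).cm0
  have hcc : ∀ d b, Cst σ (.cc d b) := by
    intro d b
    rcases bool_eq_or b d with rfl | rfl
    · exact .of (hF _).cc1
    · exact .of (hF _).cc0
  have hcs : ∀ d, Cst σ (.cs d) := fun d => .of (hF d).cs
  have hcf : ∀ d, Cst σ (.cf d) := fun d => .of (hF d).cf
  have hce : ∀ d, Cst σ (.ce d) := fun d => .of (hF d).ce
  have hcgs : ∀ d, Cst σ (.cgs d) := fun d => .of (hF d).cgs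
  have habl : ∀ m, ∀ b ∈ (List.range p.k).map (ab m), Cst σ b := by
    intro m b hb
    simp only [List.mem_map, List.mem_range] at hb
    obtain ⟨j, hj, rfl⟩ := hb
    exact hab m j (by omega)
  have hSSl : ∀ m, ∀ s < p.L, ∀ b ∈ (List.range p.k).map (Nm.S m s), Cst σ b := by
    intro m s hs b hb
    simp only [List.mem_map, List.mem_range] at hb
    obtain ⟨j, hj, rfl⟩ := hb
    exact hSS m s hs j hj
  have hSSl' : ∀ m, ∀ s < p.L, ∀ b ∈ (List.range p.k).map (Nm.S' m s), Cst σ b := by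
    intro m s hs b hb
    simp only [List.mem_map, List.mem_range] at hb
    obtain ⟨j, hj, rfl⟩ := hb
    exact hSS' m s hs j hj
  have hSAl : ∀ m, ∀ b ∈ (List.range p.k).map (Nm.SA m), Cst σ b := by
    intro m b hb
    simp only [List.mem_map, List.mem_range] at hb
    obtain ⟨j, hj, rfl⟩ := hb
    exact hSA m j hj
  have hSBl : ∀ m, ∀ b ∈ (List.range p.k).map (Nm.SB m), Cst σ b := by
    intro m b hb
    simp only [List.mem_map, List.mem_range] at hb
    obtain ⟨j, hj, rfl⟩ := hb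
    exact hSB m j hj
  have hnil : ∀ b ∈ ([] : List Nm), Cst σ b := by simp
  show AllOK σ p.prog
  rw [prog, AllOK.range]
  intro a ha
  have hR : ∀ b, AllOK σ (p.prR b) := by
    intro b
    simp only [prR, prR1, prR2, AllOK.cons, AllOK.append, AllOK.range, AllOK.nil, argOK_add,
      argOK_un, true_and, and_true]
    exact fun s _ => ⟨⟨hnil, hnil, hnil, hnil⟩, fun _ _ => hnil⟩
  have hG1 : ∀ b, AllOK (F := F) σ (prG1 b) := by
    intro b
    simp only [prG1, AllOK.cons, AllOK.nil, argOK_un, and_true]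
    exact ⟨hnil, hnil, hnil, hnil, hnil, hnil, hnil, hnil⟩
  have hG2 : ∀ b, AllOK σ (p.prG2 b) := by
    intro b
    simp only [prG2, AllOK.cons, AllOK.range, AllOK.nil, argOK_un, and_true]
    exact fun _ _ => hnil
  have hV : ∀ b, AllOK σ (p.prV b) := by
    intro b
    simp only [prV, AllOK.cons, AllOK.nil, argOK_un, argOK_add, argOK_smul, true_and, and_true]
    exact ⟨hnil, hzb _, hzb _, hnil, hpb, hnil, hnil, hnil, hhb b, hnil, hnil, hpb, hzb _⟩
  have hU : ∀ m, AllOK σ (p.prU m) := by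
    intro m
    simp only [prU, prD, prUs, prU1, prU2, prU3, prA, prE, AllOK.cons, AllOK.append, AllOK.range,
      AllOK.nil, argOK_un, argOK_add, argOK_lin, argOK_smul, true_and, and_true]
    exact ⟨habl m, fun s hs => ⟨fun _ _ => ⟨hnil, hnil⟩, fun _ _ => trivial, hSSl m s hs,
      hSSl' m s hs, hnil⟩, fun _ _ => trivial, han m 0 (by norm_num), han m 1 (by norm_num)⟩
  have hN : ∀ m b, AllOK σ (p.prN m b) := by
    intro m b
    simp only [prN, prN1, prN2, prN3, AllOK.cons, AllOK.append, AllOK.range,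
      AllOK.nil, argOK_un, argOK_add, argOK_smul, true_and, and_true]
    exact ⟨⟨habl m, hnil, hv m b⟩, fun _ _ => hv m b, hSAl m, hSBl m, he0 m, he1 m, hv m b⟩
  have hFF : ∀ d, AllOK σ (p.prF d) := by
    intro d
    simp only [prF, AllOK.cons, AllOK.nil, argOK_add, argOK_smul, and_true]
    exact ⟨hzb _, hzb _, hzb _, hzb _⟩
  have hT : ∀ d, AllOK σ (p.prT d) := by
    intro d
    simp only [prT, AllOK.cons, AllOK.range, AllOK.nil, argOK_add, argOK_smul, and_true]
    exact fun _ _ => ⟨hcf d, hcgs d, hce d⟩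
  have hB1 : ∀ d b, AllOK (F := F) σ (prB1 d b) := by
    intro d b
    simp only [prB1, AllOK.cons, AllOK.nil, argOK_add, argOK_smul, true_and, and_true]
    exact ⟨hcm d b, hcc d b, hcs d, hcm d b, hcc d b, hcs d⟩
  have hB2 : ∀ d b, AllOK σ (p.prB2 d b) := by
    intro d b
    simp only [prB2, AllOK.cons, AllOK.range, AllOK.nil, argOK_add, argOK_smul, and_true]
    exact fun _ _ => ⟨hcm d b, hcc d b, hcs d⟩
  have hs1 : AllOK (F := F) σ prS1 := by
    simp only [prS1, AllOK.cons, AllOK.nil, argOK_add, argOK_smul, argOK_pub, argOK_lin, argOK_un,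
      true_and, and_true]
    exact ⟨hnil, hnil, hzc⟩
  have hs2 : AllOK σ p.prS2 := by
    simp only [prS2, AllOK.cons, AllOK.range, AllOK.nil, argOK_add, argOK_un, and_true]
    exact fun _ _ => ⟨hnil, hnil⟩
  have hs3 : AllOK σ p.prS3 := by
    simp only [prS3, AllOK.cons, AllOK.range, AllOK.nil, argOK_add, argOK_smul, true_and, and_true]
    exact fun j hj => ⟨htc j hj, htn j hj, hzb _, hzb _, htc j hj, htc _ (by omega)⟩
  have hs4 : AllOK σ p.prS4 := by
    simp only [prS4, AllOK.cons, AllOK.range, AllOK.nil, argOK_add, argOK_pub, and_true]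
    exact ⟨trivial, fun _ _ => trivial⟩
  match a, ha with
  | 0, _ => exact hs1
  | 1, _ => exact hs2
  | 2, _ => exact hs3
  | 3, _ => exact hs4
  | 4, _ => exact hR _
  | 5, _ => exact hR _
  | 6, _ => exact hG1 _
  | 7, _ => exact hG1 _
  | 8, _ => exact hG2 _
  | 9, _ => exact hG2 _
  | 10, _ => exact hV _
  | 11, _ => exact hV _
  | 12, _ => exact hU _
  | 13, _ => exact hU _
  | 14, _ => exact hN _ _
  | 15, _ => exact hN _ _
  | 16, _ => exact hN _ _
  | 17, _ => exact hN _ _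
  | 18, _ => exact hFF _
  | 19, _ => exact hFF _
  | 20, _ => exact hT _
  | 21, _ => exact hT _
  | 22, _ => exact hB1 _ _
  | 23, _ => exact hB1 _ _
  | 24, _ => exact hB1 _ _
  | 25, _ => exact hB1 _ _
  | 26, _ => exact hB2 _ _
  | 27, _ => exact hB2 _ _
  | 28, _ => exact hB2 _ _
  | 29, _ => exact hB2 _ _
  | n + 30, h30 => omega

end PP

end Vale.Agent.P330.H16
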