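import Vale.Agent.P330.H780.TopS

/-!
# The outputs of the content program
-/

namespace Vale.Agent.P330.H16

open Finset

variable {F : Type} [Field F] {κ' : ℕ}

namespace PP

variable {p : PP F} {off : Bool → ℕ} {R : RSys p.κ F} {pub : ℕ → Ct p.κ F} {σ : Nm → Ct p.κ F}

theorem F_eqs {d : Bool} (h : Sol p.k off R pub σ (p.prF d)) :
    σ (.cf d) = (fun x => σ (.zb d) 0 * σ (.tn p.k) x) ∧
    σ (.cg d) = (fun x => σ (.zb d) 0 * σ (.tc p.k) x) ∧
    σ (.ce d) = (fun x => σ (.zb (!d)) 0 * σ .t0n x) ∧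
    σ (.cs d) = (fun x => σ (.zb (!d)) 0 * σ (.bor (p.k + 1)) x) ∧
    σ (.cm d d) = (fun x => σ (.zb d) x) ∧
    σ (.cm d (!d)) = (fun x => σ (.cg d) x + σ (.ce d) x) ∧
    σ (.cc d d) = (fun x => σ (.ce d) x) ∧
    σ (.cc d (!d)) = (fun x => σ (.cf d) x) ∧
    σ (.cgs d) = (fun x => σ (.cg d) x + σ (.cs d) x) ∧
    σ (.oz d) = fun x => σ .zc x + σ (.cgs d) x := by
  simp only [prF, add, Sol.cons, kdv_add] at h
  simp only [kdv, List.map_cons, List.map_nil, List.getD_cons_zero,
    List.getD_cons_succ, List.sum_cons, List.sum_nil, add_zero] at h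
  obtain ⟨h1, h2, h3, h4, h5, h6, h7, h8, h9, h10, -⟩ := h
  exact ⟨h1, h2, h3, h4, h5, h6, h7, h8, h9, h10⟩

theorem T_eqs {d : Bool} (h : Sol p.k off R pub σ (p.prT d)) {j : ℕ} (hj : j < p.k + 1) :
    σ (.ot d j) = fun x => σ (.cf d) 0 * σ (.tp j) x + (σ (.cgs d) 0 * σ (.tc j) x +
      σ (.ce d) 0 * σ (.tm j) x) := by
  simp only [prT, add, Sol.range, Sol.cons, kdv_add] at h
  have h := h j hj
  simp only [kdv, List.map_cons, List.map_nil, List.getD_cons_zero,
    List.getD_cons_succ, List.sum_cons, List.sum_nil, add_zero] at h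
  obtain ⟨h1, h2, h3, h4, -⟩ := h
  rw [h4, h1, h2, h3]

theorem B1_eqs {d b : Bool} (h : Sol p.k off R pub σ (prB1 d b)) :
    σ (.ow d b) = (fun x => σ (.cm d b) 0 * σ (.w b) x + (σ (.cc d b) 0 * σ (.wn (b == d) b) x +
      σ (.cs d) 0 * σ (.w (!b)) x)) ∧
    σ (.oQ d b) = fun x => σ (.cm d b) 0 * σ (.Q b) x + (σ (.cc d b) 0 * σ (.Qn (b == d) b) x +
      σ (.cs d) 0 * σ (.Q (!b)) x) := by
  simp only [prB1, add, Sol.cons, kdv_add] at h
  simp only [kdv, List.map_cons, List.map_nil, List.getD_cons_zero,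
    List.getD_cons_succ, List.sum_cons, List.sum_nil, add_zero] at h
  obtain ⟨h1, h2, h3, h4, h5, h6, h7, h8, -⟩ := h
  constructor
  · rw [h4, h1, h2, h3]
  · rw [h8, h5, h6, h7]

theorem B2_eqs {d b : Bool} (h : Sol p.k off R pub σ (p.prB2 d b)) {s : ℕ} (hs : s < p.L) :
    σ (.oP d b s) = fun x => σ (.cm d b) 0 * σ (.P b s) x +
      (σ (.cc d b) 0 * σ (.Pn (b == d) b s) x + σ (.cs d) 0 * σ (.P (!b) s) x) := by
  simp only [prB2, add, Sol.range, Sol.cons, kdv_add] at h
  have h := h s hs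
  simp only [kdv, List.map_cons, List.map_nil, List.getD_cons_zero,
    List.getD_cons_succ, List.sum_cons, List.sum_nil, add_zero] at h
  obtain ⟨h1, h2, h3, h4, -⟩ := h
  rw [h4, h1, h2, h3]

/-- `z` or `1 + z`. -/
def zv (z : F) (b : Bool) : F := if b then z else 1 + z

theorem Scal.zb {z : F} {t : ℕ → F} (h : Scal p pub σ z t) (b : Bool) :
    σ (.zb b) = fun _ => zv z b := by
  cases b
  · exact h.zb0
  · exact h.zb1

/-- The values of the flags of the direction `d`. -/
structure Flags (σ : Nm → Ct p.κ F) (d : Bool) (z a b0 : F) : Prop where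
  cf : σ (.cf d) = fun _ => zv z d * (1 + a)
  cg : σ (.cg d) = fun _ => zv z d * a
  ce : σ (.ce d) = fun _ => zv z (!d) * (1 + b0)
  cs : σ (.cs d) = fun _ => zv z (!d) * b0
  cm1 : σ (.cm d d) = fun _ => zv z d
  cm0 : σ (.cm d (!d)) = fun _ => zv z d * a + zv z (!d) * (1 + b0)
  cc1 : σ (.cc d d) = fun _ => zv z (!d) * (1 + b0)
  cc0 : σ (.cc d (!d)) = fun _ => zv z d * (1 + a)
  cgs : σ (.cgs d) = fun _ => zv z d * a + zv z (!d) * b0
  oz : σ (.oz d) = fun _ => z + (zv z d * a + zv z (!d) * b0)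

theorem Scal.flags {z : F} {t : ℕ → F} (h : Scal p pub σ z t) {d : Bool}
    (hF : Sol p.k off R pub σ (p.prF d)) :
    Flags σ d z (t p.k) (∏ i ∈ range (p.k + 1), (1 + t i)) := by
  obtain ⟨h1, h2, h3, h4, h5, h6, h7, h8, h9, h10⟩ := F_eqs hF
  have cf : σ (.cf d) = fun _ => zv z d * (1 + t p.k) := by
    rw [h1, h.zb, h.tn _ (by omega)]
  have cg : σ (.cg d) = fun _ => zv z d * t p.k := by
    rw [h2, h.zb, h.tc _ (by omega)]
  have ce : σ (.ce d) = fun _ => zv z (!d) * (1 + ∏ i ∈ range (p.k + 1), (1 + t i)) := by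
    rw [h3, h.zb, h.t0n]
  have cs : σ (.cs d) = fun _ => zv z (!d) * ∏ i ∈ range (p.k + 1), (1 + t i) := by
    rw [h4, h.zb, h.bor _ le_rfl]
  have cgs : σ (.cgs d) = fun _ => zv z d * t p.k + zv z (!d) * ∏ i ∈ range (p.k + 1), (1 + t i) :=
    by rw [h9, cg, cs]
  exact ⟨cf, cg, ce, cs, by rw [h5, h.zb], by rw [h6, cg, ce], by rw [h7, ce], by rw [h8, cf],
    cgs, by rw [h10, h.zc, cgs]⟩

end PP

/-- The parameters of the program of the machine `M`. -/
abbrev MP.pp (M : MP) (R : RSys M.κ F) : PP F where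
  k := M.k
  κ := M.κ
  n := M.n
  L := M.L
  dir := M.dir
  sc j i := R.s j (e M.κ i)

/-- The names have the contents of `c`. -/
structure Holds (M : MP) (σ : Nm → Ct M.κ F) (nz : Nm) (nt : ℕ → Nm) (nw : Bool → Nm)
    (nP : Bool → ℕ → Nm) (nQ : Bool → Nm) (c : Cont M.κ F) : Prop where
  z : σ nz = fun _ => bF F c.z
  t : ∀ j < M.k + 1, σ (nt j) = fun _ => bF F (c.t.testBit j)
  w : ∀ b, σ (nw b) = c.w b
  P : ∀ b, ∀ s < M.L, σ (nP b s) = c.P b s
  Q : ∀ b, σ (nQ b) = c.Q b

/-- The base names have the contents of `c`. -/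
abbrev HoldsIn (M : MP) (σ : Nm → Ct M.κ F) (c : Cont M.κ F) : Prop :=
  Holds M σ .z .t .w .P .Q c

/-- The output names for the direction `d` have the contents of `c`. -/
abbrev HoldsOut (M : MP) (σ : Nm → Ct M.κ F) (d : Bool) (c : Cont M.κ F) : Prop :=
  Holds M σ (.oz d) (.ot d) (.ow d) (.oP d) (.oQ d) c

/-- The update names of the mode `m` and the bank `b` have the contents of `c`. -/
structure HoldsUpd (M : MP) (σ : Nm → Ct M.κ F) (m b : Bool) (c : Cont M.κ F) : Prop where
  w : σ (.wn m b) = c.w b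
  P : ∀ s < M.L, σ (.Pn m b s) = c.P b s
  Q : σ (.Qn m b) = c.Q b

theorem PP.zv_bF (R : RSys κ' F) (hκ : 0 < κ') (z d : Bool) : PP.zv (bF F z) d = bF F (z == d) := by
  cases z <;> cases d <;> simp [PP.zv, R.two hκ]

theorem bool_eq_or (b d : Bool) : b = d ∨ b = !d := by cases b <;> cases d <;> simp

/-- **The outputs are the contents after the step**, if the update names are right. -/
theorem holds_step {M : MP} (hM : M.Good) {R : RSys M.κ F} {off : Bool → ℕ}
    {pub : ℕ → Ct M.κ F} {σ : Nm → Ct M.κ F} (h : (M.pp R).Eqs off R pub σ) {c : Cont M.κ F}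
    (hc : HoldsIn M σ c) (ht : c.t ≤ 2 ^ M.k) (d : Bool)
    (hfill : c.z = d → c.t < 2 ^ M.k →
      HoldsUpd M σ false (!c.z) (M.addS R c (!c.z) c.t (M.vnext c c.t)))
    (herase : c.z ≠ d → 0 < c.t →
      HoldsUpd M σ true (!c.z) (M.addS R c (!c.z) (c.t - 1) (M.vnext c (c.t - 1)))) :
    HoldsOut M σ d (M.stepC R d c) := by
  have hκ := hM.κ_pos
  have two := R.two hκ
  have hS := h.scal hκ
  have hz : σ .z 0 = bF F c.z := by rw [hc.z]
  have htb : ∀ j < M.k + 1, σ (.t j) 0 = bF F (c.t.testBit j) := fun j hj => by rw [hc.t j hj]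
  have hF := hS.flags (h.eF d)
  have ha : σ (.t M.k) 0 = bF F (decide (c.t = 2 ^ M.k)) := by
    rw [htb _ (by omega), bF_eq_top ht]
  have hlt : c.t < 2 ^ (M.k + 1) := by
    have : 2 ^ (M.k + 1) = 2 * 2 ^ M.k := by rw [pow_succ, mul_comm]
    have : 0 < 2 ^ M.k := by positivity
    omega
  have hb : ∏ i ∈ range (M.k + 1), (1 + σ (.t i) 0) = bF F (decide (c.t = 0)) := by
    rw [← bF_eq_zero R hκ hlt]
    exact Finset.prod_congr rfl fun i hi => by rw [htb i (mem_range.1 hi)]
  have hcar : ∀ j < M.k + 1, ∏ i ∈ range j, σ (.t i) 0 = ∏ i ∈ range j, bF F (c.t.testBit i) :=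
    fun j hj => Finset.prod_congr rfl fun i hi => htb i (by have := mem_range.1 hi; omega)
  have hbor : ∀ j < M.k + 1, ∏ i ∈ range j, (1 + σ (.t i) 0) =
      ∏ i ∈ range j, (1 + bF F (c.t.testBit i)) :=
    fun j hj => Finset.prod_congr rfl fun i hi => by
      rw [htb i (by have := mem_range.1 hi; omega)]
  rw [hz] at hF
  have hF' : PP.Flags (p := M.pp R) σ d (bF F c.z) (bF F (decide (c.t = 2 ^ M.k)))
      (bF F (decide (c.t = 0))) := by
    have e1 : σ (.t (M.pp R).k) 0 = bF F (decide (c.t = 2 ^ M.k)) := ha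
    have e2 : ∏ i ∈ range ((M.pp R).k + 1), (1 + σ (.t i) 0) = bF F (decide (c.t = 0)) := hb
    simp only [e1, e2] at hF
    exact hF
  obtain ⟨cf, cg, ce, cs, cm1, cm0, cc1, cc0, cgs, oz⟩ := hF'
  simp only [PP.zv_bF R hκ] at cf cg ce cs cm1 cm0 cc1 cc0 cgs oz
  have hT : ∀ j < M.k + 1, σ (.ot d j) = fun x => σ (.cf d) 0 * σ (.tp j) x +
      (σ (.cgs d) 0 * σ (.tc j) x + σ (.ce d) 0 * σ (.tm j) x) := fun j hj => PP.T_eqs (h.eT d) hj
  have hW : ∀ b, σ (.ow d b) = fun x => σ (.cm d b) 0 * σ (.w b) x +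
      (σ (.cc d b) 0 * σ (.wn (b == d) b) x + σ (.cs d) 0 * σ (.w (!b)) x) :=
    fun b => (PP.B1_eqs (h.eB1 d b)).1
  have hQ : ∀ b, σ (.oQ d b) = fun x => σ (.cm d b) 0 * σ (.Q b) x +
      (σ (.cc d b) 0 * σ (.Qn (b == d) b) x + σ (.cs d) 0 * σ (.Q (!b)) x) :=
    fun b => (PP.B1_eqs (h.eB1 d b)).2
  have hP : ∀ b, ∀ s < M.L, σ (.oP d b s) = fun x => σ (.cm d b) 0 * σ (.P b s) x +
      (σ (.cc d b) 0 * σ (.Pn (b == d) b s) x + σ (.cs d) 0 * σ (.P (!b) s) x) :=
    fun b s hs => PP.B2_eqs (h.eB2 d b) hs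
  have tc : ∀ j < M.k + 1, σ (.tc j) = fun _ => bF F (c.t.testBit j) := fun j hj => by
    rw [hS.tc j hj, htb j hj]
  have tp : ∀ j < M.k + 1, σ (.tp j) = fun _ => bF F ((c.t + 1).testBit j) := fun j hj => by
    rw [hS.tp j hj, htb j hj, hcar j hj, bF_succ R hκ]
  have dd : (d == d) = true := by cases d <;> rfl
  have dn : ((!d) == d) = false := by cases d <;> rfl
  have nd : (d == !d) = false := by cases d <;> rfl
  by_cases hzd : c.z = d
  · have hzd' : (c.z == d) = true := by rw [hzd]; exact dd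
    have hzn : (c.z == !d) = false := by rw [hzd]; exact nd
    have hnz : (!c.z) = !d := by rw [hzd]
    by_cases htop : c.t = 2 ^ M.k
    · -- flip
      have ht0 : ¬ c.t = 0 := by rw [htop]; positivity
      simp only [decide_eq_true htop, decide_eq_false ht0, hzd', hzn, bF_true, bF_false, mul_zero, zero_mul, one_mul, mul_one, add_zero, zero_add,
        two] at cf cg ce cs cm1 cm0 cc1 cc0 cgs oz
      have hst : M.stepC R d c = { c with z := !c.z } := by
        rw [MP.stepC, if_pos hzd, if_pos htop]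
      rw [hst]
      refine ⟨?_, ?_, ?_, ?_, ?_⟩
      · rw [oz, bF_not R hκ, add_comm]
      · intro j hj
        rw [hT j hj, cf, cgs, ce, tc j hj]
        simp
      · intro b
        rw [hW b, cs]
        rcases bool_eq_or b d with rfl | rfl
        · rw [cm1, cc1, hc.w]; simp
        · rw [cm0, cc0, hc.w]; simp
      · intro b s hs
        rw [hP b s hs, cs]
        rcases bool_eq_or b d with rfl | rfl
        · rw [cm1, cc1, hc.P _ s hs]; simp
        · rw [cm0, cc0, hc.P _ s hs]; simp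
      · intro b
        rw [hQ b, cs]
        rcases bool_eq_or b d with rfl | rfl
        · rw [cm1, cc1, hc.Q]; simp
        · rw [cm0, cc0, hc.Q]; simp
    · -- fill
      have hu := hfill hzd (lt_of_le_of_ne ht htop)
      rw [hnz] at hu
      simp only [decide_eq_false htop, hzd', hzn, bF_true, bF_false, mul_zero, zero_mul, one_mul, mul_one, add_zero, zero_add,
        two] at cf cg ce cs cm1 cm0 cc1 cc0 cgs oz
      have hst : M.stepC R d c =
          { M.addS R c (!c.z) c.t (M.vnext c c.t) with t := c.t + 1 } := by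
        rw [MP.stepC, if_pos hzd, if_neg htop]
      rw [hst, hnz]
      refine ⟨?_, ?_, ?_, ?_, ?_⟩
      · rw [oz]; rfl
      · intro j hj
        rw [hT j hj, cf, cgs, ce, tc j hj, tp j hj]
        simp
      · intro b
        rw [hW b, cs]
        rcases bool_eq_or b d with rfl | rfl
        · rw [cm1, cc1, hc.w]
          simp [MP.addS]
        · rw [cm0, cc0, dn, hu.w]
          simp
      · intro b s hs
        rw [hP b s hs, cs]
        rcases bool_eq_or b d with rfl | rfl
        · rw [cm1, cc1, hc.P _ s hs]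
          simp [MP.addS]
        · rw [cm0, cc0, dn, hu.P s hs]
          simp
      · intro b
        rw [hQ b, cs]
        rcases bool_eq_or b d with rfl | rfl
        · rw [cm1, cc1, hc.Q]
          simp [MP.addS]
        · rw [cm0, cc0, dn, hu.Q]
          simp
  · have hzd2 : c.z = !d := (bool_eq_or c.z d).resolve_left hzd
    have hzd' : (c.z == d) = false := by rw [hzd2]; exact dn
    have hzn : (c.z == !d) = true := by rw [hzd2]; cases d <;> rfl
    have hnz : (!c.z) = d := by rw [hzd2, Bool.not_not]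
    by_cases ht0 : c.t = 0
    · -- swap
      simp only [decide_eq_true ht0, hzd', hzn, bF_true, bF_false, mul_zero, zero_mul, one_mul, mul_one, add_zero, zero_add,
        two] at cf cg ce cs cm1 cm0 cc1 cc0 cgs oz
      have hst : M.stepC R d c =
          ⟨!c.z, c.t, fun b => c.w (!b), fun b => c.P (!b), fun b => c.Q (!b)⟩ := by
        rw [MP.stepC, if_neg hzd, if_pos ht0]
      rw [hst]
      refine ⟨?_, ?_, ?_, ?_, ?_⟩
      · rw [oz, bF_not R hκ, add_comm]
      · intro j hj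
        rw [hT j hj, cf, cgs, ce, tc j hj]
        simp
      · intro b
        rw [hW b, cs]
        rcases bool_eq_or b d with rfl | rfl
        · rw [cm1, cc1, hc.w, hc.w]; simp
        · rw [cm0, cc0, hc.w, hc.w]; simp
      · intro b s hs
        rw [hP b s hs, cs]
        rcases bool_eq_or b d with rfl | rfl
        · rw [cm1, cc1, hc.P _ s hs, hc.P _ s hs]; simp
        · rw [cm0, cc0, hc.P _ s hs, hc.P _ s hs]; simp
      · intro b
        rw [hQ b, cs]
        rcases bool_eq_or b d with rfl | rfl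
        · rw [cm1, cc1, hc.Q, hc.Q]; simp
        · rw [cm0, cc0, hc.Q, hc.Q]; simp
    · -- erase
      have hpos : 0 < c.t := Nat.pos_of_ne_zero ht0
      have hu := herase hzd hpos
      rw [hnz] at hu
      have tm : ∀ j < M.k + 1, σ (.tm j) = fun _ => bF F ((c.t - 1).testBit j) := fun j hj => by
        rw [hS.tm j hj, htb j hj, hbor j hj, bF_pred R hκ hpos]
      simp only [decide_eq_false ht0, hzd', hzn, bF_true, bF_false, mul_zero, zero_mul, one_mul, mul_one, add_zero, zero_add,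
        two] at cf cg ce cs cm1 cm0 cc1 cc0 cgs oz
      have hst : M.stepC R d c =
          { M.addS R c (!c.z) (c.t - 1) (M.vnext c (c.t - 1)) with t := c.t - 1 } := by
        rw [MP.stepC, if_neg hzd, if_neg ht0]
      rw [hst, hnz]
      have dn' : (d = !d) = False := by cases d <;> simp
      refine ⟨?_, ?_, ?_, ?_, ?_⟩
      · rw [oz]; rfl
      · intro j hj
        rw [hT j hj, cf, cgs, ce, tc j hj, tm j hj]
        simp
      · intro b
        rw [hW b, cs]
        rcases bool_eq_or b d with rfl | rfl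
        · rw [cm1, cc1, dd, hu.w]
          simp
        · rw [cm0, cc0, hc.w]
          simp [MP.addS]
      · intro b s hs
        rw [hP b s hs, cs]
        rcases bool_eq_or b d with rfl | rfl
        · rw [cm1, cc1, dd, hu.P s hs]
          simp
        · rw [cm0, cc0, hc.P _ s hs]
          simp [MP.addS]
      · intro b
        rw [hQ b, cs]
        rcases bool_eq_or b d with rfl | rfl
        · rw [cm1, cc1, dd, hu.Q]
          simp
        · rw [cm0, cc0, hc.Q]
          simp [MP.addS]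

end Vale.Agent.P330.H16
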