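import Vale.Agent.P330.H780.Mac

/-!
# Semantic identities of the macros, part 2

* (S6) bits of positions as sums; the values of the subspace polynomials at positions;
* (S7) the packet words;
* (S8) bits of `t + 1` and `t - 1`, comparison with `0` and `2 ^ k`;
* (S9) the masks of the kinds of slots.
-/

namespace Vale.Agent.P330.H16

open Finset

variable {κ : ℕ} {F : Type}

/-! ### (S6) -/

section pos

variable [Field F]

theorem dl_one (a : ℕ) : dl (F := F) a (fun _ : V2 κ => 1) = fun x => if num x = a then 1 else 0 :=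
  rfl

theorem dl_mul (f : V2 κ → F) (a : ℕ) (u : Ct κ F) (x : V2 κ) :
    dl a (fun y => f y * u y) x = f x * dl a u x := by
  unfold dl
  split_ifs <;> simp

/-- The bits of a position from its packet word. -/
theorem sum_bx_dl {p : ℕ} (hp : p < 2 ^ κ) (i : ℕ) :
    ∑ x : V2 κ, bx i x * dl (F := F) p (fun _ => 1) x = bF F (p.testBit i) := by
  have h : ∀ x : V2 κ, bx i x * dl (F := F) p (fun _ => 1) x = dl p (fun y => bx i y) x := by
    intro x
    rw [← dl_mul]
    simp
  rw [Finset.sum_congr rfl fun x _ => h x, sum_dl hp, bx_num, num_pt hp]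

theorem RSys.s_bits (R : RSys κ F) (j p : ℕ) :
    ∑ i ∈ range κ, R.s j (e κ i) * bF F (p.testBit i) = R.s j (pt κ p) := by
  rw [additive_eq (R.s_add j) (pt κ p)]
  refine Finset.sum_congr rfl fun i hi => ?_
  rw [bx_pt (mem_range.1 hi)]

theorem RSys.s_xor (R : RSys κ F) (j p q : ℕ) :
    R.s j (pt κ (p ^^^ q)) = R.s j (pt κ p) + R.s j (pt κ q) := by
  rw [pt_xor, R.s_add]

theorem RSys.s_xor_pow (R : RSys κ F) (j p d : ℕ) :
    R.s j (pt κ (p ^^^ 2 ^ d)) = R.s j (pt κ p) + R.s j (e κ d) := by
  rw [R.s_xor, e_eq_pt]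

theorem RSys.s_xor_two (R : RSys κ F) (j p : ℕ) :
    R.s j (pt κ (p ^^^ 2)) = R.s j (pt κ p) + R.s j (e κ 1) := R.s_xor_pow j p 1

theorem RSys.s_xor_one (R : RSys κ F) (j p : ℕ) :
    R.s j (pt κ (p ^^^ 1)) = R.s j (pt κ p) + R.s j (e κ 0) := R.s_xor_pow j p 0

theorem RSys.s_xor_three (R : RSys κ F) (j p : ℕ) :
    R.s j (pt κ (p ^^^ 3)) = R.s j (pt κ p) + (R.s j (e κ 0) + R.s j (e κ 1)) := by
  have h : (3 : ℕ) = 2 ^ 0 ^^^ 2 ^ 1 := by decide
  rw [h, R.s_xor, R.s_xor, ← e_eq_pt, ← e_eq_pt]

end pos

/-! ### (S7) Packets -/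

namespace MP

variable {M : MP} [Field F] {R : RSys M.κ F}

theorem Good.pos_lt (hM : M.Good) {a : ℕ} (ha : a < 2 ^ M.k) {s : ℕ} (hs : s ≤ M.L) :
    M.pos a s < 2 ^ M.k := by
  induction s with
  | zero => exact ha
  | succ s ih =>
    have h := ih (by omega)
    simp only [pos]
    split_ifs
    · exact hM.xor_dir (by omega) h
    · exact h

/-- The word with the packet of slot `a` after `s` stages. -/
def packet (M : MP) (F : Type) [Field F] (a s : ℕ) : Ct M.κ F := dl (M.pos a s) fun _ => 1

/-- The change of the product of stage `s` if the content of slot `a` changes by one. -/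
def packU (M : MP) {F : Type} [Field F] (R : RSys M.κ F) (a s : ℕ) : Ct M.κ F := fun x =>
  R.L M.k (M.pos a s) x * M.swE R s x + R.L M.k (M.pos a s ^^^ 2 ^ M.dir s) x * M.swE R s x

/-- The restriction of `packU` to the slots. -/
theorem pre_packU (hM : M.Good) {a : ℕ} (ha : a < 2 ^ M.k) {s : ℕ} (hs : s < M.L) (x : V2 M.κ) :
    pre (2 ^ M.k) (M.packU R a s) x = bF F (M.sw s (M.pos a s)) *
      (dl (M.pos a s) (fun _ => 1) x + dl (M.pos a s ^^^ 2 ^ M.dir s) (fun _ => 1) x) := by
  have hp := hM.pos_lt ha hs.le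
  have hq := hM.xor_dir hs hp
  by_cases hx : num x < 2 ^ M.k
  · unfold pre packU dl
    rw [if_pos hx]
    have hL : ∀ p, p < 2 ^ M.k → R.L M.k p x = if p = num x then 1 else 0 := by
      intro p hp'
      conv_lhs => rw [← pt_num x]
      exact R.L_pt hM.k_le hp' hx
    have hS : M.swE R s x = bF F (M.sw s (num x)) := by
      conv_lhs => rw [← pt_num x]
      exact R.lde_pt hM.k_le _ hx
    rw [hL _ hp, hL _ hq, hS]
    have hsym : M.sw s (M.pos a s ^^^ 2 ^ M.dir s) = M.sw s (M.pos a s) :=
      hM.sw_symm s hs _ hp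
    have hc : ∀ p, (num x = p) = (p = num x) := fun p => propext eq_comm
    simp only [hc]
    have e1 : (if M.pos a s = num x then (1 : F) else 0) * bF F (M.sw s (num x)) =
        bF F (M.sw s (M.pos a s)) * if M.pos a s = num x then (1 : F) else 0 := by
      split_ifs with h1
      · rw [h1, mul_comm]
      · simp
    have e2 : (if M.pos a s ^^^ 2 ^ M.dir s = num x then (1 : F) else 0) * bF F (M.sw s (num x)) =
        bF F (M.sw s (M.pos a s)) * if M.pos a s ^^^ 2 ^ M.dir s = num x then (1 : F) else 0 := by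
      split_ifs with h1
      · rw [← h1, hsym, mul_comm]
      · simp
    rw [e1, e2, mul_add]
  · unfold pre dl
    rw [if_neg hx, if_neg (by omega), if_neg (by omega)]
    ring

/-- **(S7)** The packet moves to its next position. -/
theorem packet_succ (hM : M.Good) (R : RSys M.κ F) {a : ℕ} (ha : a < 2 ^ M.k) {s : ℕ}
    (hs : s < M.L) (x : V2 M.κ) :
    M.packet F a (s + 1) x = M.packet F a s x + pre (2 ^ M.k) (M.packU R a s) x := by
  rw [pre_packU hM ha hs]
  unfold packet
  simp only [pos]
  have h2 := R.two hM.κ_pos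
  cases hsw : M.sw s (M.pos a s)
  · simp
  · simp only [if_true, bF_true, one_mul]
    rw [← add_assoc, R.add_self hM.κ_pos, zero_add]

/-- The packet words are data words. -/
theorem pre_packet (hM : M.Good) {a : ℕ} (ha : a < 2 ^ M.k) {s : ℕ} (hs : s ≤ M.L) :
    pre (2 ^ M.k) (M.packet F a s) = M.packet F a s := by
  have hp := hM.pos_lt ha hs
  funext x
  unfold pre packet dl
  by_cases hx : num x < 2 ^ M.k
  · rw [if_pos hx]
  · rw [if_neg hx, if_neg (by omega)]

end MP

/-! ### (S8) Counting -/

section count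

theorem testBit_succ_aux (t : ℕ) : ∀ j, (t + 1).testBit j =
    Bool.xor (t.testBit j) (decide (∀ i < j, t.testBit i = true)) := by
  intro j
  induction j generalizing t with
  | zero => simp [Nat.testBit_zero, Nat.add_mod]; rcases Nat.mod_two_eq_zero_or_one t with h | h <;> simp [h]
  | succ j ih =>
    rw [Nat.testBit_succ, Nat.testBit_succ]
    rcases Nat.mod_two_eq_zero_or_one t with h | h
    · have e1 : (t + 1) / 2 = t / 2 := by omega
      have e2 : ¬ ∀ i < j + 1, t.testBit i = true := by
        intro h'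
        have := h' 0 (by omega)
        rw [Nat.testBit_zero, h] at this
        simp at this
      rw [e1, decide_eq_false e2]
      simp
    · have e1 : (t + 1) / 2 = t / 2 + 1 := by omega
      rw [e1, ih]
      congr 1
      rw [decide_eq_decide]
      constructor
      · intro h' i hi
        cases i with
        | zero => rw [Nat.testBit_zero, h]; rfl
        | succ i => rw [Nat.testBit_succ]; exact h' i (by omega)
      · intro h' i hi
        have := h' (i + 1) (by omega)
        rwa [Nat.testBit_succ] at this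

theorem testBit_pred_aux {t : ℕ} (ht : 0 < t) : ∀ j, (t - 1).testBit j =
    Bool.xor (t.testBit j) (decide (∀ i < j, t.testBit i = false)) := by
  intro j
  induction j generalizing t with
  | zero =>
    rcases Nat.mod_two_eq_zero_or_one t with h | h
    · have : (t - 1) % 2 = 1 := by omega
      simp [Nat.testBit_zero, h, this]
    · have : (t - 1) % 2 = 0 := by omega
      simp [Nat.testBit_zero, h, this]
  | succ j ih =>
    rw [Nat.testBit_succ, Nat.testBit_succ]
    rcases Nat.mod_two_eq_zero_or_one t with h | h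
    · have e1 : (t - 1) / 2 = t / 2 - 1 := by omega
      rw [e1, ih (by omega)]
      congr 1
      rw [decide_eq_decide]
      constructor
      · intro h' i hi
        cases i with
        | zero => rw [Nat.testBit_zero, h]; rfl
        | succ i => rw [Nat.testBit_succ]; exact h' i (by omega)
      · intro h' i hi
        have := h' (i + 1) (by omega)
        rwa [Nat.testBit_succ] at this
    · have e1 : (t - 1) / 2 = t / 2 := by omega
      have e2 : ¬ ∀ i < j + 1, t.testBit i = false := by
        intro h'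
        have := h' 0 (by omega)
        rw [Nat.testBit_zero, h] at this
        simp at this
      rw [e1, decide_eq_false e2]
      simp

variable [Field F]

theorem prod_bF (f : ℕ → Bool) (j : ℕ) :
    ∏ i ∈ range j, bF F (f i) = bF F (decide (∀ i < j, f i = true)) := by
  induction j with
  | zero => simp
  | succ j ih =>
    rw [Finset.prod_range_succ, ih, ← bF_and]
    congr 1
    have h : (decide (∀ i < j, f i = true) && f j) = decide ((∀ i < j, f i = true) ∧ f j = true) := by
      cases f j <;> simp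
    rw [h, decide_eq_decide]
    constructor
    · rintro ⟨h1, h2⟩ i hi
      rcases Nat.lt_succ_iff_lt_or_eq.1 hi with h | rfl
      · exact h1 i h
      · exact h2
    · exact fun h => ⟨fun i hi => h i (by omega), h j (by omega)⟩

/-- **(S8)** The bits of `t + 1`. -/
theorem bF_succ (R : RSys κ F) (hκ : 0 < κ) (t j : ℕ) :
    bF F ((t + 1).testBit j) = bF F (t.testBit j) + ∏ i ∈ range j, bF F (t.testBit i) := by
  rw [testBit_succ_aux, bF_xor R hκ, prod_bF]

/-- The bits of `t - 1`. -/
theorem bF_pred (R : RSys κ F) (hκ : 0 < κ) {t : ℕ} (ht : 0 < t) (j : ℕ) :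
    bF F ((t - 1).testBit j) = bF F (t.testBit j) + ∏ i ∈ range j, (1 + bF F (t.testBit i)) := by
  rw [testBit_pred_aux ht, bF_xor R hκ]
  congr 1
  have h : ∀ i ∈ range j, 1 + bF F (t.testBit i) = bF F (!t.testBit i) :=
    fun i _ => (bF_not R hκ _).symm
  rw [Finset.prod_congr rfl h, prod_bF]
  congr 1
  rw [decide_eq_decide]
  simp

/-- Comparison with zero. -/
theorem bF_eq_zero (R : RSys κ F) (hκ : 0 < κ) {t m : ℕ} (ht : t < 2 ^ m) :
    ∏ i ∈ range m, (1 + bF F (t.testBit i)) = bF F (decide (t = 0)) := by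
  have h : ∀ i ∈ range m, 1 + bF F (t.testBit i) = bF F (!t.testBit i) :=
    fun i _ => (bF_not R hκ _).symm
  rw [Finset.prod_congr rfl h, prod_bF]
  congr 1
  rw [decide_eq_decide]
  constructor
  · intro h'
    apply Nat.eq_of_testBit_eq
    intro j
    rw [Nat.zero_testBit]
    by_cases hj : j < m
    · simpa using h' j hj
    · exact Nat.testBit_lt_two_pow (ht.trans_le (Nat.pow_le_pow_right (by norm_num) (not_lt.1 hj)))
  · rintro rfl i -
    simp

/-- Comparison with `2 ^ k`. -/
theorem bF_eq_top {t k : ℕ} (ht : t ≤ 2 ^ k) :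
    bF F (t.testBit k) = bF F (decide (t = 2 ^ k)) := by
  congr 1
  rcases Nat.lt_or_ge t (2 ^ k) with h | h
  · rw [Nat.testBit_lt_two_pow h, eq_comm, decide_eq_false_iff_not]
    omega
  · have : t = 2 ^ k := le_antisymm ht h
    subst this
    rw [Nat.testBit_two_pow_self, decide_eq_true rfl]

end count

/-! ### (S9) Masks -/

section masks

variable [Field F]

theorem num_mod_four (x : V2 κ) :
    num x % 4 = ((num x).testBit 0).toNat + 2 * ((num x).testBit 1).toNat := by
  have h0 : ((num x).testBit 0).toNat = num x % 2 := by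
    rw [Nat.toNat_testBit]; simp
  have h1 : ((num x).testBit 1).toNat = num x / 2 % 2 := by
    rw [Nat.toNat_testBit]
  rw [h0, h1]
  omega

/-- the slots of kind `i` -/
def isK (i x : ℕ) : Bool := decide (x % 4 = i)

theorem isNand_eq : isNand = isK 2 := rfl

theorem msk_isK0 (R : RSys κ F) (hκ : 0 < κ) (u : Ct κ F) (x : V2 κ) :
    msk (isK 0) u x = (1 + bx 0 x) * ((1 + bx 1 x) * u x) := by
  have h2 := R.two hκ
  unfold msk isK
  rw [bx_num, bx_num, num_mod_four]
  cases (num x).testBit 0 <;> cases (num x).testBit 1 <;> simp [h2]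

theorem msk_isK1 (R : RSys κ F) (hκ : 0 < κ) (u : Ct κ F) (x : V2 κ) :
    msk (isK 1) u x = bx 0 x * ((1 + bx 1 x) * u x) := by
  have h2 := R.two hκ
  unfold msk isK
  rw [bx_num, bx_num, num_mod_four]
  cases (num x).testBit 0 <;> cases (num x).testBit 1 <;> simp [h2]

theorem msk_isNand (R : RSys κ F) (hκ : 0 < κ) (u : Ct κ F) (x : V2 κ) :
    msk isNand u x = (1 + bx 0 x) * (bx 1 x * u x) := by
  have h2 := R.two hκ
  rw [isNand_eq]
  unfold msk isK
  rw [bx_num, bx_num, num_mod_four]
  cases (num x).testBit 0 <;> cases (num x).testBit 1 <;> simp [h2]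

namespace MP

variable (M : MP)

/-- The mask of the input slots. -/
theorem msk_isIn (v : Ct M.κ F) : msk M.isIn v = pre (4 * M.n) (msk (isK 0) v) := by
  funext x
  unfold msk pre isIn isK
  by_cases h1 : num x % 4 = 0 <;> by_cases h2 : num x < 4 * M.n <;> simp [h1, h2]

/-- **(S9)** The masks of the copy slots and of the input slots. -/
theorem msk_isCopy_add (R : RSys M.κ F) (hκ : 0 < M.κ) (u v : Ct M.κ F) (x : V2 M.κ) :
    msk M.isIn v x + msk M.isCopy u x = msk (isK 1) u x + (msk (isK 0) u x +
      pre (4 * M.n) (msk (isK 0) fun y => u y + v y) x) := by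
  unfold msk pre isIn isCopy isK
  have h3 : u x + (u x + v x) = v x := by rw [← add_assoc, R.add_self hκ, zero_add]
  by_cases h1 : num x % 4 = 0 <;> by_cases h2 : num x < 4 * M.n <;>
    by_cases h4 : num x % 4 = 1 <;> simp [h1, h2, h4, h3]

/-- The mask of the gate slots of the input cells. -/
theorem msk_boolChk (u : Ct M.κ F) :
    msk (fun x => isNand x && decide (x < 4 * M.n)) u = pre (4 * M.n) (msk isNand u) := by
  funext x
  unfold msk pre isNand
  by_cases h1 : num x % 4 = 2 <;> by_cases h2 : num x < 4 * M.n <;> simp [h1, h2]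

end MP

end masks

end Vale.Agent.P330.H16
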