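import Vale.Agent.P330.H155.TopMach
import Vale.Agent.P330.H780.TopF
import Vale.Agent.P330.W.H118.Macros

/-!
# The numbers of translations and coordinates in the content program
-/

set_option linter.unusedSectionVars false

namespace Vale.Agent.P330.H780

open Finset H16 H118 H155

variable {F : Type} [Field F] {κ : ℕ}

/-- All instructions of a macro have numbers of translations and coordinates less than `κ`. -/
def MK (κ : ℕ) (m : Mac F) : Prop := ∀ n r, ∀ i ∈ (m n r).1, InsK κ i

theorem MK.id : MK κ (idM : Mac F) := by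
  intro n r i hi
  simp [idM] at hi

theorem MK.tr {j : ℕ} (hj : j < κ) : MK κ (trM j : Mac F) := by
  intro n r i hi
  simp only [trM, List.mem_singleton] at hi
  subst hi
  exact hj

theorem MK.mx {j : ℕ} (hj : j < κ) : MK κ (mxM j : Mac F) := by
  intro n r i hi
  simp only [mxM, List.mem_singleton] at hi
  subst hi
  exact hj

theorem MK.sum : MK κ (sumM : Mac F) := by
  intro n r i hi
  simp only [sumM, List.mem_singleton] at hi
  subst hi
  trivial

theorem MK.sm (c : ℕ) : MK κ (smM c : Mac F) := by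
  intro n r i hi
  simp only [smM, List.mem_singleton] at hi
  subst hi
  trivial

theorem MK.comp {m m' : Mac F} (h : MK κ m) (h' : MK κ m') : MK κ (H16.comp m m') := by
  intro n r i hi
  simp only [H16.comp, List.mem_append] at hi
  rcases hi with hi | hi
  · exact h _ _ i hi
  · exact h' _ _ i hi

theorem MK.lcAux {l : List (F × Mac F)} (h : ∀ q ∈ l, MK κ q.2) (n r : ℕ) :
    ∀ i ∈ (H16.lcAux l n r).1, InsK κ i := by
  induction l generalizing n with
  | nil => intro i hi; simp [H16.lcAux] at hi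
  | cons q l ih =>
    intro i hi
    simp only [H16.lcAux, List.mem_append] at hi
    rcases hi with hi | hi
    · exact h q (List.mem_cons_self ..) _ _ i hi
    · exact ih (fun q hq => h q (List.mem_cons_of_mem _ hq)) _ i hi

theorem MK.lc {l : List (F × Mac F)} (h : ∀ q ∈ l, MK κ q.2) : MK κ (H16.lc l) := by
  intro n r i hi
  simp only [H16.lc, List.mem_append, List.mem_singleton] at hi
  rcases hi with hi | rfl
  · exact MK.lcAux h n r i hi
  · trivial

theorem MK.iter {A : ℕ → Mac F} {l : List ℕ} (h : ∀ j ∈ l, MK κ (A j)) : MK κ (iterM A l) := by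
  induction l with
  | nil => exact MK.id
  | cons j l ih =>
    exact (h j (List.mem_cons_self ..)).comp (ih fun j hj => h j (List.mem_cons_of_mem _ hj))

theorem MK.add2 {a b : Mac F} (ha : MK κ a) (hb : MK κ b) : MK κ (H118.add2 a b) :=
  MK.lc (by simp [ha, hb])

theorem MK.add3 {a b c : Mac F} (ha : MK κ a) (hb : MK κ b) (hc : MK κ c) :
    MK κ (H118.add3 a b c) :=
  MK.lc (by simp [ha, hb, hc])

theorem MK.zero : MK κ (zeroM : Mac F) := MK.lc (by simp)

theorem MK.smG (cs : List ℕ) (j : ℕ) : MK κ (H118.smG cs j : Mac F) := by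
  unfold H118.smG
  split_ifs
  · exact MK.sm _
  · exact MK.zero

theorem MK.nx {j : ℕ} (hj : j < κ) : MK κ (nxM j : Mac F) := MK.id.add2 (MK.mx hj)

theorem MK.aff (cs : List ℕ) {j : ℕ} (hj : j < κ) : MK κ (affM cs j : Mac F) :=
  MK.add3 MK.id (MK.mx hj) (MK.smG cs j)

theorem MK.bc {j : ℕ} (hj : j < κ) : MK κ (bcM j : Mac F) := MK.id.add2 (MK.tr hj)

theorem MK.s (cf : ℕ → ℕ → F) (j : ℕ) : MK κ (sM cf κ j) := by
  refine MK.lc fun q hq => ?_
  simp only [List.mem_map, List.mem_range] at hq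
  obtain ⟨i, hi, rfl⟩ := hq
  exact MK.mx hi

theorem MK.s1 (cf : ℕ → ℕ → F) (cs : List ℕ) (j : ℕ) : MK κ (s1M cf κ cs j) :=
  MK.add3 MK.id (MK.s cf j) (MK.smG cs j)

theorem MK.ifa (cf : ℕ → ℕ → F) {j : ℕ} (hj : j < κ) : MK κ (ifaM cf κ j) :=
  MK.id.add2 ((MK.bc hj).comp (MK.s cf j))

theorem MK.iff (cf : ℕ → ℕ → F) {j : ℕ} (hj : j < κ) : MK κ (iffM cf κ j) :=
  (MK.ifa cf hj).add2 (((MK.ifa cf hj).add2 (MK.bc hj)).comp (MK.mx hj))

theorem MK.ff (cf : ℕ → ℕ → F) {j : ℕ} (hj : j < κ) : MK κ (ffM cf κ j) :=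
  ((MK.nx hj).add2 ((MK.tr hj).comp (MK.mx hj))).add2
    (((MK.mx hj).add2 ((MK.tr hj).comp (MK.nx hj))).comp (MK.s cf j))

theorem MK.h {k : ℕ} : MK κ (hM κ k : Mac F) := by
  refine MK.iter fun j hj => MK.nx ?_
  rw [List.mem_range'_1] at hj
  omega

theorem MK.preAux (cs : List ℕ) {m : ℕ} (hm : m ≤ κ) : MK κ (H118.preAux cs m : Mac F) := by
  induction m with
  | zero => exact MK.zero
  | succ m ih =>
    exact ((MK.nx (by omega)).comp (MK.smG cs m)).add2 ((ih (by omega)).comp
      (MK.aff cs (by omega)))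

/-- The condition on the numbers in a unary macro. -/
def UMK (κ : ℕ) : UM → Prop
  | .tr j => j < κ
  | .mx j => j < κ
  | _ => True

theorem MK.mac (cf : ℕ → ℕ → F) {k : ℕ} (hκ : 2 ≤ κ) (hk : k ≤ κ) (off : Bool → ℕ) {m : UM}
    (hm : UMK κ m) (cs : List ℕ) : MK κ (H118.mac cf κ k off m cs) := by
  cases m with
  | tr j => exact MK.tr hm
  | mx j => exact MK.mx hm
  | sum => exact MK.sum
  | hh => exact MK.h
  | lde =>
    refine MK.h.comp ((MK.iter fun j hj => MK.iff cf ?_).comp (MK.iter fun j hj => MK.ff cf ?_))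
    · exact (List.mem_range.1 hj).trans_le hk
    · simpa using hj
  | inv => exact MK.iter fun j hj => MK.iff cf (List.mem_range.1 hj)
  | nand => exact (MK.mx (by omega)).comp (MK.nx (by omega))
  | k0 => exact (MK.nx (by omega)).comp (MK.nx (by omega))
  | k1 => exact (MK.nx (by omega)).comp (MK.mx (by omega))
  | rd0 => exact MK.iter fun j hj => MK.nx (List.mem_range.1 hj)
  | pre => exact MK.h.comp ((MK.preAux cs hk).add2 (MK.smG cs k))
  | LL => exact MK.iter fun j _ => MK.s1 cf cs j
  | ch =>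
    refine MK.iter fun j hj => ?_
    have hj' := List.mem_range.1 hj
    split_ifs
    · exact MK.aff cs hj'
    · exact MK.nx hj'
  | off z =>
    refine MK.iter fun j hj => MK.tr ?_
    rw [List.mem_filter, List.mem_range] at hj
    exact hj.1

/-- The condition on the numbers in a command. -/
def CK (κ : ℕ) {N : Type} (c : Cmd N (Kd F)) : Prop :=
  match c.kd with
  | .un m => UMK κ m
  | _ => True

theorem insK_compile (cf : ℕ → ℕ → F) {k : ℕ} (hκ : 2 ≤ κ) (hk : k ≤ κ) (off : Bool → ℕ)
    {N : Type} [DecidableEq N] {l : List (Cmd N (Kd F))} (hl : ∀ c ∈ l, CK κ c) (env : N → ℕ)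
    (n : ℕ) : ∀ i ∈ (compile (genK (H118.mac cf κ k off)) l env n).2, InsK κ i := by
  induction l generalizing env n with
  | nil => intro i hi; simp [compile] at hi
  | cons c l ih =>
    intro i hi
    simp only [compile, List.mem_append] at hi
    rcases hi with hi | hi
    · have hc := hl c (List.mem_cons_self ..)
      obtain ⟨o, kd, args⟩ := c
      cases kd with
      | lin a =>
        simp only [genK, List.mem_singleton] at hi
        subst hi
        trivial
      | pub q =>
        simp only [genK, List.mem_singleton] at hi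
        subst hi
        trivial
      | smul =>
        simp only [genK, List.mem_singleton] at hi
        subst hi
        trivial
      | un m => exact MK.mac cf hκ hk off hc _ _ _ i hi
    · exact ih (fun c hc => hl c (List.mem_cons_of_mem _ hc)) _ _ i hi

/-! ### The commands of the program -/

/-- The condition on the numbers in a list of commands. -/
def AllK (κ : ℕ) {N : Type} (l : List (Cmd N (Kd F))) : Prop := ∀ c ∈ l, CK κ c

section

variable {N : Type}

theorem AllK.nil : AllK κ ([] : List (Cmd N (Kd F))) ↔ True := by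
  unfold AllK; simp

theorem AllK.cons {c : Cmd N (Kd F)} {l : List (Cmd N (Kd F))} :
    AllK κ (c :: l) ↔ CK κ c ∧ AllK κ l := by
  unfold AllK; simp

theorem AllK.append {l l' : List (Cmd N (Kd F))} :
    AllK κ (l ++ l') ↔ AllK κ l ∧ AllK κ l' := by
  unfold AllK
  simp only [List.mem_append]
  exact ⟨fun h => ⟨fun c hc => h c (Or.inl hc), fun c hc => h c (Or.inr hc)⟩,
    fun h c hc => hc.elim (h.1 c) (h.2 c)⟩

theorem AllK.range {n : ℕ} {f : ℕ → List (Cmd N (Kd F))} :
    AllK κ ((List.range n).flatMap f) ↔ ∀ a < n, AllK κ (f a) := by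
  unfold AllK
  simp only [List.mem_flatMap, List.mem_range]
  exact ⟨fun h a ha c hc => h c ⟨a, ha, hc⟩, fun h c ⟨a, ha, hc⟩ => h a ha c hc⟩

theorem ck_lin {o : N} {l : List F} {as : List N} :
    CK κ (⟨o, .lin l, as⟩ : Cmd N (Kd F)) ↔ True := Iff.rfl

theorem ck_pub {o : N} {q : ℕ} {as : List N} :
    CK κ (⟨o, .pub q, as⟩ : Cmd N (Kd F)) ↔ True := Iff.rfl

theorem ck_smul {o : N} {as : List N} :
    CK κ (⟨o, .smul, as⟩ : Cmd N (Kd F)) ↔ True := Iff.rfl

theorem ck_un {o : N} {m : UM} {as : List N} :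
    CK κ (⟨o, .un m, as⟩ : Cmd N (Kd F)) ↔ UMK κ m := Iff.rfl

theorem ck_add {o : Nm} {l : List Nm} : CK κ (PP.add (F := F) o l) ↔ True := Iff.rfl

end

theorem allK_prog {M : MP} (hM : M.Good) (R : RSys M.κ F) : AllK M.κ (M.pp R).prog := by
  have hk : M.k ≤ M.κ := hM.k_le
  have h2 : 2 ≤ M.κ := by have := hM.hκ; omega
  have h0 : 0 < M.κ := by omega
  have h1 : 1 < M.κ := by omega
  rw [PP.prog, AllK.range]
  intro a ha
  have hR : ∀ b, AllK M.κ ((M.pp R).prR b) := by
    intro b
    simp only [PP.prR, PP.prR1, PP.prR2, AllK.cons, AllK.append, AllK.range, AllK.nil, ck_add,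
      ck_un, UMK, true_and, and_true]
    exact fun s hs => ⟨(hM.dir_lt s hs).trans_le hk, fun j hj => hj⟩
  have hG1 : ∀ b, AllK (F := F) M.κ (PP.prG1 b) := by
    intro b
    simp only [PP.prG1, AllK.cons, AllK.nil, ck_un, UMK, true_and, and_true]
    exact ⟨h1, h0⟩
  have hG2 : ∀ b, AllK M.κ ((M.pp R).prG2 b) := by
    intro b
    simp only [PP.prG2, AllK.cons, AllK.range, AllK.nil, ck_un, UMK, and_true]
    exact fun j hj => hj
  have hV : ∀ b, AllK M.κ ((M.pp R).prV b) := by
    intro b
    simp only [PP.prV, AllK.cons, AllK.nil, ck_un, ck_add, ck_smul, UMK, and_true]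
  have hU : ∀ m, AllK M.κ ((M.pp R).prU m) := by
    intro m
    simp only [PP.prU, PP.prD, PP.prUs, PP.prU1, PP.prU2, PP.prU3, PP.prA, PP.prE, AllK.cons,
      AllK.append, AllK.range, AllK.nil, ck_un, ck_add, ck_lin, ck_smul, UMK, and_true, true_and,
      implies_true]
    exact fun s _ i hi => (show i < M.k from hi).trans_le hk
  have hN : ∀ m b, AllK M.κ ((M.pp R).prN m b) := by
    intro m b
    simp only [PP.prN, PP.prN1, PP.prN2, PP.prN3, AllK.cons, AllK.append, AllK.range,
      AllK.nil, ck_un, ck_add, ck_smul, UMK, and_true, implies_true]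
  have hFF : ∀ d, AllK M.κ ((M.pp R).prF d) := by
    intro d
    simp only [PP.prF, AllK.cons, AllK.nil, ck_add, ck_smul, and_true]
  have hT : ∀ d, AllK M.κ ((M.pp R).prT d) := by
    intro d
    simp only [PP.prT, AllK.cons, AllK.range, AllK.nil, ck_add, ck_smul, and_true, implies_true]
  have hB1 : ∀ d b, AllK (F := F) M.κ (PP.prB1 d b) := by
    intro d b
    simp only [PP.prB1, AllK.cons, AllK.nil, ck_add, ck_smul, and_true]
  have hB2 : ∀ d b, AllK M.κ ((M.pp R).prB2 d b) := by
    intro d b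
    simp only [PP.prB2, AllK.cons, AllK.range, AllK.nil, ck_add, ck_smul, and_true, implies_true]
  have hs1 : AllK (F := F) M.κ PP.prS1 := by
    simp only [PP.prS1, AllK.cons, AllK.nil, ck_add, ck_smul, ck_pub, ck_lin, ck_un, UMK,
      and_true]
  have hs2 : AllK M.κ (M.pp R).prS2 := by
    simp only [PP.prS2, AllK.cons, AllK.range, AllK.nil, ck_add, ck_un, UMK, and_true,
      implies_true]
  have hs3 : AllK M.κ (M.pp R).prS3 := by
    simp only [PP.prS3, AllK.cons, AllK.range, AllK.nil, ck_add, ck_smul, and_true, implies_true]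
  have hs4 : AllK M.κ (M.pp R).prS4 := by
    simp only [PP.prS4, AllK.cons, AllK.range, AllK.nil, ck_add, ck_pub, and_true, implies_true]
  match a, ha with
  | 0, _ => exact hs1
  | 1, _ => exact hs2
  | 2, _ => exact hs3
  | 3, _ => exact hs4
  | 4, _ => exact hR _
  | 5, _ => exact hR _
  | 6, _ => exact hG1 _
  | 7, _ => exact hG1 _
  | 8, _ => exact hG2 _
  | 9, _ => exact hG2 _
  | 10, _ => exact hV _
  | 11, _ => exact hV _
  | 12, _ => exact hU _
  | 13, _ => exact hU _
  | 14, _ => exact hN _ _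
  | 15, _ => exact hN _ _
  | 16, _ => exact hN _ _
  | 17, _ => exact hN _ _
  | 18, _ => exact hFF _
  | 19, _ => exact hFF _
  | 20, _ => exact hT _
  | 21, _ => exact hT _
  | 22, _ => exact hB1 _ _
  | 23, _ => exact hB1 _ _
  | 24, _ => exact hB1 _ _
  | 25, _ => exact hB1 _ _
  | 26, _ => exact hB2 _ _
  | 27, _ => exact hB2 _ _
  | 28, _ => exact hB2 _ _
  | 29, _ => exact hB2 _ _
  | n + 30, h30 => omega

/-- **The numbers in the instructions of the content program are less than `κ`.** -/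
theorem insK_prog {M : MP} (hM : M.Good) (R : RSys M.κ F) (cf : ℕ → ℕ → F) (off : Bool → ℕ)
    (env : Nm → ℕ) (n : ℕ) :
    ∀ i ∈ (compile (genK (H118.mac cf M.κ M.k off)) (M.pp R).prog env n).2, InsK M.κ i :=
  insK_compile cf (by have := hM.hκ; omega) hM.k_le off (allK_prog hM R) env n

end Vale.Agent.P330.H780
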