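import Mathlib

/-!
# Bit vectors and numbers

`num x` is the number `∑ x_j 2^j` of the vector `x : Fin n → ZMod 2`, and `vec n a` is the vector of
the binary digits of `a`.
-/

namespace Vale.Agent.P330.H780

/-- vectors of bits -/
abbrev V (n : ℕ) : Type := Fin n → ZMod 2

theorem z2_cases (z : ZMod 2) : z = 0 ∨ z = 1 := by
  revert z; decide

theorem z2_ne_one {z : ZMod 2} : z ≠ 1 ↔ z = 0 := by
  revert z; decide

theorem z2_ne_zero {z : ZMod 2} : z ≠ 0 ↔ z = 1 := by
  revert z; decide

/-- the number of a vector -/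
def num {n : ℕ} (x : V n) : ℕ := Nat.ofBits fun j => decide (x j = 1)

/-- the vector of the binary digits -/
def vec (n a : ℕ) : V n := fun j => if a.testBit j then 1 else 0

/-- the `j`-th unit vector (zero if `n ≤ j`) -/
def unit (n j : ℕ) : V n := fun i => if (i : ℕ) = j then 1 else 0

variable {n : ℕ}

theorem testBit_num (x : V n) (j : Fin n) : (num x).testBit j = decide (x j = 1) := by
  unfold num
  rw [Nat.testBit_ofBits_lt _ _ j.2]

theorem testBit_num_of_lt (x : V n) {j : ℕ} (hj : j < n) :
    (num x).testBit j = decide (x ⟨j, hj⟩ = 1) := testBit_num x ⟨j, hj⟩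

theorem testBit_num_of_le (x : V n) {j : ℕ} (hj : n ≤ j) : (num x).testBit j = false := by
  unfold num
  exact Nat.testBit_ofBits_ge _ _ hj

theorem num_lt (x : V n) : num x < 2 ^ n := Nat.ofBits_lt_two_pow _

@[simp] theorem vec_apply (a : ℕ) (j : Fin n) : vec n a j = if a.testBit j then 1 else 0 := rfl

@[simp] theorem vec_num (x : V n) : vec n (num x) = x := by
  funext j
  rw [vec_apply, testBit_num]
  rcases z2_cases (x j) with h | h <;> simp [h]

theorem num_vec_mod (a : ℕ) : num (vec n a) = a % 2 ^ n := by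
  rw [← Nat.ofBits_testBit]
  unfold num
  congr 1
  funext j
  by_cases h : a.testBit j = true <;> simp [h]

theorem num_vec {a : ℕ} (ha : a < 2 ^ n) : num (vec n a) = a := by
  rw [num_vec_mod, Nat.mod_eq_of_lt ha]

theorem num_inj {x y : V n} (h : num x = num y) : x = y := by
  rw [← vec_num x, ← vec_num y, h]

theorem num_inj_iff {x y : V n} : num x = num y ↔ x = y := ⟨num_inj, fun h => by rw [h]⟩

theorem vec_inj {a b : ℕ} (ha : a < 2 ^ n) (hb : b < 2 ^ n) (h : vec n a = vec n b) : a = b := by
  rw [← num_vec ha, ← num_vec hb, h]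

theorem num_add (x y : V n) : num (x + y) = num x ^^^ num y := by
  apply Nat.eq_of_testBit_eq
  intro j
  rw [Nat.testBit_xor]
  by_cases hj : j < n
  · rw [testBit_num_of_lt _ hj, testBit_num_of_lt _ hj, testBit_num_of_lt _ hj, Pi.add_apply]
    rcases z2_cases (x ⟨j, hj⟩) with h | h <;> rcases z2_cases (y ⟨j, hj⟩) with h' | h' <;>
      rw [h, h'] <;> decide
  · rw [testBit_num_of_le _ (not_lt.1 hj), testBit_num_of_le _ (not_lt.1 hj),
      testBit_num_of_le _ (not_lt.1 hj)]
    rfl

@[simp] theorem num_zero : num (0 : V n) = 0 := by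
  apply Nat.eq_of_testBit_eq
  intro j
  rw [Nat.zero_testBit]
  by_cases hj : j < n
  · rw [testBit_num_of_lt _ hj]; simp
  · rw [testBit_num_of_le _ (not_lt.1 hj)]

theorem vec_xor (a b : ℕ) : vec n (a ^^^ b) = vec n a + vec n b := by
  funext j
  rw [Pi.add_apply, vec_apply, vec_apply, vec_apply, Nat.testBit_xor]
  cases a.testBit j <;> cases b.testBit j <;> decide

@[simp] theorem vec_zero : vec n 0 = 0 := by
  funext j
  simp

theorem unit_apply (j : ℕ) (i : Fin n) : unit n j i = if (i : ℕ) = j then 1 else 0 := rfl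

theorem unit_eq_single (j : Fin n) : unit n j = Pi.single j 1 := by
  funext i
  rw [unit_apply, Pi.single_apply]
  simp only [Fin.ext_iff]

theorem vec_two_pow (j : ℕ) : vec n (2 ^ j) = unit n j := by
  funext i
  rw [vec_apply, unit_apply, Nat.testBit_two_pow]
  by_cases h : j = (i : ℕ)
  · rw [if_pos (decide_eq_true h), if_pos h.symm]
  · rw [if_neg (by simpa using h), if_neg (fun h' => h h'.symm)]

theorem num_unit {j : ℕ} (hj : j < n) : num (unit n j) = 2 ^ j := by
  rw [← vec_two_pow, num_vec (Nat.pow_lt_pow_right (by norm_num) hj)]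

theorem num_add_unit (x : V n) {j : ℕ} (hj : j < n) : num (x + unit n j) = num x ^^^ 2 ^ j := by
  rw [num_add, num_unit hj]

theorem add_self (x : V n) : x + x = 0 := by
  funext j
  have : ∀ z : ZMod 2, z + z = 0 := by decide
  exact this _

theorem add_add_self (x y : V n) : x + y + y = x := by
  rw [add_assoc, add_self, add_zero]

theorem neg_eq (x : V n) : -x = x := by
  rw [neg_eq_iff_add_eq_zero, add_self]

/-- The vectors are the numbers less than `2 ^ n`. -/
def equiv (n : ℕ) : V n ≃ Fin (2 ^ n) where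
  toFun x := ⟨num x, num_lt x⟩
  invFun a := vec n a
  left_inv x := vec_num x
  right_inv a := Fin.ext (num_vec a.2)

theorem sum_eq_range {M : Type*} [AddCommMonoid M] (f : V n → M) :
    ∑ x, f x = ∑ a ∈ Finset.range (2 ^ n), f (vec n a) := by
  rw [Finset.sum_range fun a => f (vec n a)]
  exact Fintype.sum_equiv (equiv n) _ _ fun x => by simp [equiv]

/-- The number is the sum of the powers of two. -/
theorem num_eq_sum (x : V n) : num x = ∑ j : Fin n, (x j).val * 2 ^ (j : ℕ) := by
  induction n with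
  | zero => simp [num]
  | succ n ih =>
    rw [Fin.sum_univ_succ]
    have h : num x = 2 * num (fun j : Fin n => x j.succ) + (x 0).val := by
      unfold num
      rw [Nat.ofBits_succ]
      congr 1
      rcases z2_cases (x 0) with h | h <;> rw [h] <;> decide
    rw [h, ih, Finset.mul_sum, add_comm]
    congr 1
    · simp
    · exact Finset.sum_congr rfl fun j _ => by rw [Fin.val_succ, pow_succ]; ring

/-! ### The subspace `H k` of the vectors with number less than `2 ^ k` -/

/-- the coordinates `≥ k` vanish -/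
def InH (k : ℕ) (x : V n) : Prop := ∀ j : Fin n, k ≤ (j : ℕ) → x j = 0

instance (k : ℕ) (x : V n) : Decidable (InH k x) := by unfold InH; infer_instance

theorem inH_iff (k : ℕ) (x : V n) : InH k x ↔ num x < 2 ^ k := by
  constructor
  · intro h
    apply Nat.lt_pow_two_of_testBit
    intro j hj
    by_cases hn : j < n
    · rw [testBit_num_of_lt _ hn, h ⟨j, hn⟩ hj]; simp
    · exact testBit_num_of_le _ (not_lt.1 hn)
  · intro h j hj
    have h1 : (num x).testBit j = false :=
      Nat.testBit_lt_two_pow (h.trans_le (Nat.pow_le_pow_right (by norm_num) hj))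
    rw [testBit_num] at h1
    exact z2_ne_one.1 (by simpa using h1)

theorem inH_vec {k a : ℕ} (ha : a < 2 ^ k) : InH k (vec n a) := by
  intro j hj
  rw [vec_apply, Nat.testBit_lt_two_pow (ha.trans_le (Nat.pow_le_pow_right (by norm_num) hj))]
  rfl

theorem inH_zero (k : ℕ) : InH k (0 : V n) := fun _ _ => rfl

theorem InH.add {k : ℕ} {x y : V n} (hx : InH k x) (hy : InH k y) : InH k (x + y) :=
  fun j hj => by rw [Pi.add_apply, hx j hj, hy j hj, add_zero]

theorem inH_unit {k j : ℕ} (h : j < k) : InH k (unit n j) := by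
  intro i hi
  rw [unit_apply, if_neg (by omega)]

theorem InH.add_iff {k : ℕ} {x y : V n} (hy : InH k y) : InH k (x + y) ↔ InH k x :=
  ⟨fun h => by have := h.add hy; rwa [add_add_self] at this, fun h => h.add hy⟩

theorem inH_of_le {k : ℕ} (h : n ≤ k) (x : V n) : InH k x := fun j hj => by
  have := j.2
  omega

theorem sum_inH {M : Type*} [AddCommMonoid M] {k : ℕ} (hk : k ≤ n) (f : V n → M)
    (hf : ∀ x, ¬ InH k x → f x = 0) :
    ∑ x, f x = ∑ a ∈ Finset.range (2 ^ k), f (vec n a) := by
  rw [sum_eq_range]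
  symm
  refine Finset.sum_subset (Finset.range_subset_range.2 (Nat.pow_le_pow_right (by norm_num) hk))
    fun a ha ha' => hf _ ?_
  rw [Finset.mem_range] at ha ha'
  rw [inH_iff, num_vec ha]
  exact ha'

/-! ### The two lowest digits -/

theorem testBit_add_mul {m : ℕ} (q : ℕ) {r j : ℕ} (hr : r < 2 ^ m) (hj : j < m) :
    (2 ^ m * q + r).testBit j = r.testBit j := by
  rw [Nat.testBit_two_pow_mul_add q hr, if_pos hj]

theorem num_mod_four (x : V n) (hn : 2 ≤ n) :
    num x % 4 = (x ⟨0, by omega⟩).val + 2 * (x ⟨1, by omega⟩).val := by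
  have h0 := testBit_num x ⟨0, by omega⟩
  have h1 := testBit_num x ⟨1, by omega⟩
  simp only at h0 h1
  rw [Nat.testBit_zero] at h0
  rw [Nat.testBit_succ, Nat.testBit_zero] at h1
  rcases z2_cases (x ⟨0, by omega⟩) with h | h <;>
    rcases z2_cases (x ⟨1, by omega⟩) with h' | h' <;>
    rw [h] at h0 <;> rw [h'] at h1 <;> rw [h, h'] <;> simp [ZMod.val] at h0 h1 ⊢ <;> omega

/-! ### Comparison of numbers, digit by digit -/

/-- Comparison of the last `j + 1` digits. -/
theorem mod_lt_mod_succ (a t j : ℕ) :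
    a % 2 ^ (j + 1) < t % 2 ^ (j + 1) ↔
      if a.testBit j = t.testBit j then a % 2 ^ j < t % 2 ^ j else t.testBit j = true := by
  have key : ∀ a : ℕ, a % 2 ^ (j + 1) = 2 ^ j * (a.testBit j).toNat + a % 2 ^ j := by
    intro a
    rw [pow_succ, Nat.mod_mul, Nat.toNat_testBit, add_comm]
  rw [key a, key t]
  have h1 : a % 2 ^ j < 2 ^ j := Nat.mod_lt _ (by positivity)
  have h2 : t % 2 ^ j < 2 ^ j := Nat.mod_lt _ (by positivity)
  cases a.testBit j <;> cases t.testBit j <;> simp <;> omega

/-- The prefix mask, computed from the lowest digit upwards. -/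
def pre {F : Type*} [Semiring F] (t a : ℕ) : ℕ → F
  | 0 => 0
  | j + 1 => (if t.testBit j then 1 else 0) * (1 + if a.testBit j then 1 else 0) +
      (1 + (if a.testBit j then 1 else 0) + if t.testBit j then 1 else 0) * pre t a j

theorem pre_eq {F : Type*} [Semiring F] [CharP F 2] (t a j : ℕ) :
    pre (F := F) t a j = if a % 2 ^ j < t % 2 ^ j then 1 else 0 := by
  have h2 : (1 : F) + 1 = 0 := CharTwo.add_self_eq_zero 1
  induction j with
  | zero => simp [pre, Nat.mod_one]
  | succ j ih =>
    rw [pre, ih]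
    simp only [mod_lt_mod_succ]
    cases a.testBit j <;> cases t.testBit j <;> simp [h2]

theorem pre_eq_of_lt {F : Type*} [Semiring F] [CharP F 2] {t a j : ℕ} (ht : t < 2 ^ j)
    (ha : a < 2 ^ j) : pre (F := F) t a j = if a < t then 1 else 0 := by
  rw [pre_eq, Nat.mod_eq_of_lt ht, Nat.mod_eq_of_lt ha]

end Vale.Agent.P330.H780
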