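import Vale.Agent.P330.H780.Mac2

/-!
# The additive transform on contents

`iffOp R j` and `ffOp R j` (of `H16.Kinds`) are the stages of the inverse transform and of the transform.  The main
results are

* `ldeW_eq`: `ldeW k u` is the transform (all stages, from `κ - 1` down to `0`) of the inverse
  transform (stages `0, …, k - 1`) of `pre (2 ^ k) u`;
* `mem_RS_iff`: `u ∈ RS (2 ^ k)` iff the inverse transform of `u` (all stages) is supported on the
  numbers `< 2 ^ k`, i.e. iff its products with `x_i`, `k ≤ i < κ`, vanish.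
-/

namespace Vale.Agent.P330.H16

open Finset

variable {κ : ℕ} {F : Type}

section bits

variable [Field F]

theorem testBit_num_add_e (x : V2 κ) {j : ℕ} (hj : j < κ) (i : ℕ) :
    (num (x + e κ j)).testBit i = if i = j then !(num x).testBit i else (num x).testBit i := by
  rw [e_eq_pt, num_add_pt x (Nat.pow_lt_pow_right (by norm_num) hj), Nat.testBit_xor,
    Nat.testBit_two_pow]
  by_cases h : i = j
  · subst h; simp
  · have : ¬ j = i := fun h' => h h'.symm
    simp [h, this]

theorem bx_add_e_ne {i j : ℕ} (hj : j < κ) (h : i ≠ j) (x : V2 κ) :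
    bx (F := F) i (x + e κ j) = bx i x := by
  rw [bx_num, bx_num, testBit_num_add_e x hj, if_neg h]

theorem bx_add_e (R : RSys κ F) {j : ℕ} (hj : j < κ) (x : V2 κ) :
    bx (F := F) j (x + e κ j) = bx j x + 1 := by
  rw [bx_num, bx_num, testBit_num_add_e x hj, if_pos rfl, bF_not R (by omega), add_comm]

theorem add_e_add_e (x : V2 κ) (j : ℕ) : x + e κ j + e κ j = x := by
  rw [add_assoc, v2_add_self, add_zero]

theorem bx_cases (j : ℕ) (x : V2 κ) :
    ((num x).testBit j = false ∧ bx (F := F) j x = 0) ∨
      ((num x).testBit j = true ∧ bx (F := F) j x = 1) := by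
  rw [bx_num]
  cases (num x).testBit j <;> simp

end bits

section transform

variable [Field F] (R : RSys κ F)

theorem RSys.s_add_e {j : ℕ} (hj : j < κ) (x : V2 κ) : R.s j (x + e κ j) = R.s j x + 1 := by
  rw [R.s_add, R.s_self j hj]

theorem RSys.s_add_e_lt {i j : ℕ} (hij : i < j) (hj : j < κ) (x : V2 κ) :
    R.s j (x + e κ i) = R.s j x := by
  rw [R.s_add, R.s_low i j hij hj, add_zero]

theorem ffOp_zero {j : ℕ} (_hj : j < κ) (u : Ct κ F) {x : V2 κ} (hx : (num x).testBit j = false) :
    ffOp R j u x = u x + R.s j x * u (x + e κ j) := by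
  have hb : bx (F := F) j x = 0 := by rw [bx_num, hx]; rfl
  simp only [ffOp, at0, at1, tr, hb]
  ring

theorem ffOp_one {j : ℕ} (hj : j < κ) (u : Ct κ F) {x : V2 κ} (hx : (num x).testBit j = true) :
    ffOp R j u x = u (x + e κ j) + R.s j x * u x := by
  have hb : bx (F := F) j x = 1 := by rw [bx_num, hx]; rfl
  simp only [ffOp, at0, at1, tr, hb]
  have := R.two (by omega)
  linear_combination (u x + R.s j x * u (x + e κ j)) * this

theorem iffOp_zero {j : ℕ} (u : Ct κ F) {x : V2 κ} (hx : (num x).testBit j = false) :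
    iffOp R j u x = u x + R.s j x * (u x + u (x + e κ j)) := by
  have hb : bx (F := F) j x = 0 := by rw [bx_num, hx]; rfl
  simp only [iffOp, tr, hb]
  ring

theorem iffOp_one {j : ℕ} (hj : j < κ) (u : Ct κ F) {x : V2 κ} (hx : (num x).testBit j = true) :
    iffOp R j u x = u x + u (x + e κ j) := by
  have hb : bx (F := F) j x = 1 := by rw [bx_num, hx]; rfl
  simp only [iffOp, tr, hb]
  have := R.two (by omega)
  linear_combination (u x + R.s j x * (u x + u (x + e κ j))) * this

theorem testBit_add_e_self (x : V2 κ) {j : ℕ} (hj : j < κ) :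
    (num (x + e κ j)).testBit j = !(num x).testBit j := by
  rw [testBit_num_add_e x hj, if_pos rfl]

theorem iffOp_ffOp {j : ℕ} (hj : j < κ) (u : Ct κ F) : iffOp R j (ffOp R j u) = u := by
  funext x
  have two := R.two (by omega : 0 < κ)
  cases hx : (num x).testBit j
  · have hx' : (num (x + e κ j)).testBit j = true := by rw [testBit_add_e_self x hj, hx]; rfl
    rw [iffOp_zero R _ hx, ffOp_zero R hj _ hx, ffOp_one R hj _ hx', add_e_add_e, R.s_add_e hj]
    linear_combination (R.s j x * u (x + e κ j) + R.s j x * u x +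
      R.s j x * R.s j x * u (x + e κ j)) * two
  · have hx' : (num (x + e κ j)).testBit j = false := by rw [testBit_add_e_self x hj, hx]; rfl
    rw [iffOp_one R hj _ hx, ffOp_one R hj _ hx, ffOp_zero R hj _ hx', add_e_add_e, R.s_add_e hj]
    linear_combination (u (x + e κ j) + R.s j x * u x) * two

theorem ffOp_iffOp {j : ℕ} (hj : j < κ) (u : Ct κ F) : ffOp R j (iffOp R j u) = u := by
  funext x
  have two := R.two (by omega : 0 < κ)
  cases hx : (num x).testBit j
  · have hx' : (num (x + e κ j)).testBit j = true := by rw [testBit_add_e_self x hj, hx]; rfl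
    rw [ffOp_zero R hj _ hx, iffOp_zero R _ hx, iffOp_one R hj _ hx', add_e_add_e]
    linear_combination (R.s j x * (u x + u (x + e κ j))) * two
  · have hx' : (num (x + e κ j)).testBit j = false := by rw [testBit_add_e_self x hj, hx]; rfl
    rw [ffOp_one R hj _ hx, iffOp_one R hj _ hx, iffOp_zero R _ hx', add_e_add_e, R.s_add_e hj]
    linear_combination (u (x + e κ j) + R.s j x * (u x + u (x + e κ j))) * two

theorem opIter_iff_ff {l : List ℕ} (hl : ∀ j ∈ l, j < κ) (u : Ct κ F) :
    opIter (iffOp R) l (opIter (ffOp R) l.reverse u) = u := by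
  induction l with
  | nil => rfl
  | cons j l ih =>
    rw [List.reverse_cons, opIter_append, opIter_cons, opIter_cons, opIter_nil,
      iffOp_ffOp R (hl j (List.mem_cons_self ..)), ih fun i hi => hl i (List.mem_cons_of_mem _ hi)]

theorem opIter_ff_iff {l : List ℕ} (hl : ∀ j ∈ l, j < κ) (u : Ct κ F) :
    opIter (ffOp R) l.reverse (opIter (iffOp R) l u) = u := by
  induction l generalizing u with
  | nil => rfl
  | cons j l ih =>
    have h1 := ih (fun i hi => hl i (List.mem_cons_of_mem _ hi)) (iffOp R j u)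
    rw [List.reverse_cons, opIter_append, opIter_cons, opIter_nil,
      show opIter (iffOp R) (j :: l) u = opIter (iffOp R) l (iffOp R j u) from rfl, h1,
      ffOp_iffOp R (hl j (List.mem_cons_self ..))]

/-! ### Linearity -/

theorem ffOp_sum (j : ℕ) {ι : Type*} (t : Finset ι) (a : ι → F) (u : ι → Ct κ F) :
    ffOp R j (fun x => ∑ i ∈ t, a i * u i x) = fun x => ∑ i ∈ t, a i * ffOp R j (u i) x := by
  funext x
  simp only [ffOp, at0, at1, tr, Finset.mul_sum, ← Finset.sum_add_distrib]
  exact Finset.sum_congr rfl fun i _ => by ring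

theorem opIter_ff_sum (l : List ℕ) {ι : Type*} (t : Finset ι) (a : ι → F) (u : ι → Ct κ F) :
    opIter (ffOp R) l (fun x => ∑ i ∈ t, a i * u i x) =
      fun x => ∑ i ∈ t, a i * opIter (ffOp R) l (u i) x := by
  induction l generalizing u with
  | nil => rfl
  | cons j l ih =>
    simp only [opIter_cons]
    rw [ffOp_sum]
    exact ih _

/-! ### The transform of a unit word -/

/-- The product of the `s j`, `j` a bit of `p`. -/
def XR (p : ℕ) : Ct κ F := fun x => ∏ j ∈ range κ, if p.testBit j then R.s j x else 1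

/-- Intermediate words of the transform of the unit word `p`. -/
def DR (m p : ℕ) : Ct κ F := fun x => (∏ j ∈ range m, (1 + bx j x + bF F (p.testBit j))) *
  ∏ j ∈ Ico m κ, if p.testBit j then R.s j x else 1

theorem ffOp_DR {m : ℕ} (hm : m < κ) (p : ℕ) : ffOp R m (DR R (m + 1) p) = DR R m p := by
  funext x
  have hA : ∏ j ∈ range m, (1 + bx j (x + e κ m) + bF F (p.testBit j)) =
      ∏ j ∈ range m, (1 + bx j x + bF F (p.testBit j)) := by
    refine Finset.prod_congr rfl fun j hj => ?_
    rw [mem_range] at hj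
    rw [bx_add_e_ne hm (by omega)]
  have hB : (∏ j ∈ Ico (m + 1) κ, if p.testBit j then R.s j (x + e κ m) else 1) =
      ∏ j ∈ Ico (m + 1) κ, if p.testBit j then R.s j x else 1 := by
    refine Finset.prod_congr rfl fun j hj => ?_
    rw [mem_Ico] at hj
    rw [R.s_add_e_lt (by omega) (by omega)]
  have h1 : ∀ y, DR R (m + 1) p y = (∏ j ∈ range m, (1 + bx j y + bF F (p.testBit j))) *
      (1 + bx m y + bF F (p.testBit m)) *
      ∏ j ∈ Ico (m + 1) κ, if p.testBit j then R.s j y else 1 := by
    intro y
    rw [DR, Finset.prod_range_succ]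
  have h2 : DR R m p x = (∏ j ∈ range m, (1 + bx j x + bF F (p.testBit j))) *
      ((if p.testBit m then R.s m x else 1) *
      ∏ j ∈ Ico (m + 1) κ, if p.testBit j then R.s j x else 1) := by
    rw [DR, Finset.prod_eq_prod_Ico_succ_bot hm]
  have two := R.two (by omega : 0 < κ)
  rw [h2]
  set A := ∏ j ∈ range m, (1 + bx j x + bF F (p.testBit j)) with hAdef
  set B := ∏ j ∈ Ico (m + 1) κ, if p.testBit j then R.s j x else 1 with hBdef
  have hx1 : DR R (m + 1) p x = A * (1 + bx m x + bF F (p.testBit m)) * B := h1 x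
  have hx2 : DR R (m + 1) p (x + e κ m) =
      A * (1 + (bx m x + 1) + bF F (p.testBit m)) * B := by
    rw [h1, hA, hB, bx_add_e R hm]
  rcases bx_cases (F := F) m x with ⟨hx, hb⟩ | ⟨hx, hb⟩
  · rw [ffOp_zero R hm _ hx, hx1, hx2, hb]
    cases hp : p.testBit m
    · simp only [bF_false, if_neg Bool.false_ne_true]
      linear_combination (R.s m x * A * B) * two
    · simp only [bF_true, if_true]
      linear_combination (A * B + R.s m x * A * B) * two
  · rw [ffOp_one R hm _ hx, hx1, hx2, hb]
    cases hp : p.testBit m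
    · simp only [bF_false, if_neg Bool.false_ne_true]
      linear_combination (A * B + R.s m x * A * B) * two
    · simp only [bF_true, if_true]
      linear_combination (2 * A * B + R.s m x * A * B) * two

theorem opIter_ff_DR {m : ℕ} (hm : m ≤ κ) (p : ℕ) :
    opIter (ffOp R) (List.range m).reverse (DR R m p) = DR R 0 p := by
  induction m with
  | zero => rfl
  | succ m ih =>
    rw [List.range_succ, List.reverse_append, List.reverse_singleton, List.singleton_append,
      opIter_cons, ffOp_DR R (by omega), ih (by omega)]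

theorem DR_zero (p : ℕ) : DR R 0 p = XR R p := by
  funext x
  simp [DR, XR, Nat.Ico_zero_eq_range]

theorem DR_top (hκ : 0 < κ) {p : ℕ} (hp : p < 2 ^ κ) : DR R κ p = dl p fun _ => 1 := by
  rw [← opIter_dl R hκ hp]
  funext x
  rw [opIter_mul (fun j y => 1 + bx j y + bF F (p.testBit j)), list_prod_range]
  simp [DR]

/-- The transform as a sum. -/
theorem opIter_ff_eq (hκ : 0 < κ) (c : Ct κ F) :
    opIter (ffOp R) (List.range κ).reverse c =
      fun x => ∑ p ∈ range (2 ^ κ), c (pt κ p) * XR R p x := by
  have h1 : c = fun x => ∑ p ∈ range (2 ^ κ), c (pt κ p) * DR R κ p x := by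
    funext x
    rw [Finset.sum_eq_single (num x)]
    · rw [DR_top R hκ (num_lt x), pt_num]
      simp [dl]
    · intro p hp hne
      rw [DR_top R hκ (mem_range.1 hp)]
      simp [dl, hne.symm]
    · intro h
      exact absurd (mem_range.2 (num_lt x)) h
  conv_lhs => rw [h1]
  rw [opIter_ff_sum]
  funext x
  refine Finset.sum_congr rfl fun p _ => ?_
  rw [opIter_ff_DR R le_rfl, DR_zero]

/-! ### Degrees -/

theorem XR_mem_aux (p : ℕ) {m : ℕ} (hm : m ≤ κ) :
    (fun x => ∏ j ∈ range m, if p.testBit j then R.s j x else 1) ∈ R.RS (p % 2 ^ m + 1) := by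
  induction m with
  | zero => simpa [Nat.mod_one] using R.one_RS
  | succ m ih =>
    have h := ih (by omega)
    have hmod : p % 2 ^ (m + 1) = 2 ^ m * (p.testBit m).toNat + p % 2 ^ m := by
      rw [pow_succ, Nat.mod_mul, Nat.testBit_eq_decide_div_mod_eq]
      rcases Nat.mod_two_eq_zero_or_one (p / 2 ^ m) with h0 | h0 <;> (simp [h0]; try ring)
    cases hp : p.testBit m
    · have e1 : (fun x : V2 κ => ∏ j ∈ range (m + 1), if p.testBit j then R.s j x else 1) =
          fun x => ∏ j ∈ range m, if p.testBit j then R.s j x else 1 := by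
        funext x
        rw [Finset.prod_range_succ, hp]
        simp
      rw [e1, hmod, hp]
      simpa using h
    · have e1 : (fun x : V2 κ => ∏ j ∈ range (m + 1), if p.testBit j then R.s j x else 1) =
          fun x => R.s m x * ∏ j ∈ range m, if p.testBit j then R.s j x else 1 := by
        funext x
        rw [Finset.prod_range_succ, hp, mul_comm]
        simp
      rw [e1, hmod, hp]
      simpa using R.mul _ _ _ _ (R.s_RS m (by omega)) h

theorem XR_mem {p : ℕ} (hp : p < 2 ^ κ) : XR R p ∈ R.RS (p + 1) := by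
  have := XR_mem_aux R p (le_refl κ)
  rwa [Nat.mod_eq_of_lt hp] at this

/-- The transform of a word on the numbers `< 2 ^ k` has degree `< 2 ^ k`. -/
theorem opIter_ff_mem (hκ : 0 < κ) {k : ℕ} (hk : k ≤ κ) {c : Ct κ F} (hc : pre (2 ^ k) c = c) :
    opIter (ffOp R) (List.range κ).reverse c ∈ R.RS (2 ^ k) := by
  have hle : 2 ^ k ≤ 2 ^ κ := Nat.pow_le_pow_right (by norm_num) hk
  rw [opIter_ff_eq R hκ]
  have : (fun x => ∑ p ∈ range (2 ^ κ), c (pt κ p) * XR R p x) =
      ∑ p ∈ range (2 ^ κ), c (pt κ p) • XR R p := by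
    funext x
    simp
  rw [this]
  refine Submodule.sum_mem _ fun p hp => ?_
  rw [mem_range] at hp
  by_cases h : p < 2 ^ k
  · exact Submodule.smul_mem _ _ (R.mono _ _ (by omega) (XR_mem R hp))
  · have h0 : c (pt κ p) = 0 := by
      rw [← hc, pre_pt _ hp, if_neg h]
    rw [h0, zero_smul]
    exact Submodule.zero_mem _

/-- Two elements of `RS (2 ^ k)` which agree on the numbers `< 2 ^ k` are equal. -/
theorem eq_of_pre {k : ℕ} (hk : k ≤ κ) {u v : Ct κ F} (hu : u ∈ R.RS (2 ^ k))
    (hv : v ∈ R.RS (2 ^ k)) (h : pre (2 ^ k) u = pre (2 ^ k) v) : u = v := by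
  classical
  have hle : 2 ^ k ≤ 2 ^ κ := Nat.pow_le_pow_right (by norm_num) hk
  by_contra hne
  have h1 : u - v ≠ 0 := sub_ne_zero.2 hne
  have h2 := R.zeros _ (u - v) (Submodule.sub_mem _ hu hv) hle h1
  have h3 : 2 ^ k ≤ (univ.filter fun x => (u - v) x = 0).card := by
    rw [← Finset.card_range (2 ^ k)]
    refine Finset.card_le_card_of_injOn (pt κ) ?_ ?_
    · intro p hp
      simp only [coe_range, Set.mem_Iio] at hp
      have hp' := hp.trans_le hle
      have h4 := congrFun h (pt κ p)
      rw [pre_pt _ hp', pre_pt _ hp', if_pos hp, if_pos hp] at h4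
      simp [h4]
    · intro p hp q hq hpq
      simp only [coe_range, Set.mem_Iio] at hp hq
      exact pt_inj (hp.trans_le hle) (hq.trans_le hle) hpq
  have h5 : (univ.filter fun x => (u - v) x = 0).card < 2 ^ k := by
    convert h2
  omega

/-! ### Restriction to the small numbers -/

theorem num_lt_iff {k : ℕ} (x : V2 κ) :
    num x < 2 ^ k ↔ ∀ j, k ≤ j → (num x).testBit j = false := by
  constructor
  · intro h j hj
    exact Nat.testBit_lt_two_pow (h.trans_le (Nat.pow_le_pow_right (by norm_num) hj))
  · intro h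
    exact Nat.lt_pow_two_of_testBit _ h

theorem num_add_e_lt {k j : ℕ} (hjk : j < k) (hj : j < κ) (x : V2 κ) :
    num (x + e κ j) < 2 ^ k ↔ num x < 2 ^ k := by
  rw [num_lt_iff, num_lt_iff]
  refine forall_congr' fun i => forall_congr' fun hi => ?_
  rw [testBit_num_add_e x hj, if_neg (by omega)]

theorem pre_ffOp {k j : ℕ} (hjk : j < k) (hj : j < κ) (u : Ct κ F) :
    pre (2 ^ k) (ffOp R j u) = ffOp R j (pre (2 ^ k) u) := by
  funext x
  simp only [pre, ffOp, at0, at1, tr, num_add_e_lt hjk hj]
  split_ifs <;> simp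

theorem pre_iffOp {k j : ℕ} (hjk : j < k) (hj : j < κ) (u : Ct κ F) :
    pre (2 ^ k) (iffOp R j u) = iffOp R j (pre (2 ^ k) u) := by
  funext x
  simp only [pre, iffOp, tr, num_add_e_lt hjk hj]
  split_ifs <;> simp

theorem pre_opIter_ff {k : ℕ} {l : List ℕ} (hk : k ≤ κ) (hl : ∀ j ∈ l, j < k) (u : Ct κ F) :
    pre (2 ^ k) (opIter (ffOp R) l u) = opIter (ffOp R) l (pre (2 ^ k) u) := by
  induction l generalizing u with
  | nil => rfl
  | cons j l ih =>
    have hj := hl j (List.mem_cons_self ..)
    rw [opIter_cons, ih (fun i hi => hl i (List.mem_cons_of_mem _ hi)), opIter_cons,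
      pre_ffOp R hj (by omega)]

theorem pre_opIter_iff {k : ℕ} {l : List ℕ} (hk : k ≤ κ) (hl : ∀ j ∈ l, j < k) (u : Ct κ F) :
    pre (2 ^ k) (opIter (iffOp R) l u) = opIter (iffOp R) l (pre (2 ^ k) u) := by
  induction l generalizing u with
  | nil => rfl
  | cons j l ih =>
    have hj := hl j (List.mem_cons_self ..)
    rw [opIter_cons, ih (fun i hi => hl i (List.mem_cons_of_mem _ hi)), opIter_cons,
      pre_iffOp R hj (by omega)]

/-- The upper stages do not change the restriction of a word on the small numbers. -/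
theorem pre_upper {k n : ℕ} (hn : k + n ≤ κ) (w : Ct κ F)
    (hw : ∀ x, (∃ i, k ≤ i ∧ i < k + n ∧ (num x).testBit i = true) → w x = 0) :
    pre (2 ^ k) (opIter (ffOp R) (List.range' k n).reverse w) = pre (2 ^ k) w := by
  induction n generalizing w with
  | zero => rfl
  | succ n ih =>
    rw [List.range'_concat, List.reverse_append, List.reverse_singleton, List.singleton_append,
      opIter_cons, one_mul]
    have hκn : k + n < κ := by omega
    rw [ih (by omega)]
    · funext x
      unfold pre
      split_ifs with hx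
      · have hx0 : (num x).testBit (k + n) = false := (num_lt_iff x).1 hx _ (by omega)
        rw [ffOp_zero R hκn _ hx0, hw (x + e κ (k + n)) ⟨k + n, by omega, by omega, by
          rw [testBit_add_e_self x hκn, hx0]; rfl⟩]
        ring
      · rfl
    · rintro x ⟨i, hi1, hi2, hi3⟩
      have h1 : w x = 0 := hw x ⟨i, hi1, by omega, hi3⟩
      have h2 : w (x + e κ (k + n)) = 0 := hw _ ⟨i, hi1, by omega, by
        rw [testBit_num_add_e x hκn, if_neg (by omega), hi3]⟩
      cases hx : (num x).testBit (k + n)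
      · rw [ffOp_zero R hκn _ hx, h1, h2]; ring
      · rw [ffOp_one R hκn _ hx, h1, h2]; ring

/-- The inverse transform of `pre (2 ^ k) u` on the small numbers. -/
theorem pre_ff_iff {k : ℕ} (hk : k ≤ κ) (u : Ct κ F) :
    pre (2 ^ k) (opIter (ffOp R) (List.range κ).reverse
      (opIter (iffOp R) (List.range k) (pre (2 ^ k) u))) = pre (2 ^ k) u := by
  have hr : (List.range κ).reverse = (List.range' k (κ - k)).reverse ++ (List.range k).reverse := by
    rw [← List.reverse_append, List.range_eq_range', List.range_eq_range',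
      show List.range' 0 k ++ List.range' k (κ - k) = List.range' 0 κ by
        rw [show κ = k + (κ - k) by omega, ← List.range'_append_1]; simp]
  set c := opIter (iffOp R) (List.range k) (pre (2 ^ k) u) with hc
  have hcs : pre (2 ^ k) c = c := by
    rw [hc, pre_opIter_iff R hk (fun j hj => List.mem_range.1 hj), pre_pre le_rfl]
  rw [hr, opIter_append, pre_opIter_ff R hk (by simp), pre_upper R (by omega), hcs, hc,
    opIter_ff_iff R (fun j hj => (List.mem_range.1 hj).trans_le hk)]
  rintro x ⟨i, hi1, -, hi3⟩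
  rw [← hcs]
  unfold pre
  rw [if_neg]
  intro h
  rw [(num_lt_iff x).1 h i hi1] at hi3
  exact absurd hi3 (by simp)

theorem iff_small {k : ℕ} (hk : k ≤ κ) (u : Ct κ F) :
    pre (2 ^ k) (opIter (iffOp R) (List.range k) (pre (2 ^ k) u)) =
      opIter (iffOp R) (List.range k) (pre (2 ^ k) u) := by
  rw [pre_opIter_iff R hk (fun j hj => List.mem_range.1 hj), pre_pre le_rfl]

theorem pre_ldeW {k : ℕ} (hk : k ≤ κ) (u : Ct κ F) :
    pre (2 ^ k) (R.ldeW k u) = pre (2 ^ k) u := by
  funext x
  unfold pre
  split_ifs with h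
  · have := R.ldeW_pt hk u h
    rwa [pt_num] at this
  · rfl

/-- **(S10)(b)** The low degree extension by the transform. -/
theorem ldeW_eq (hκ : 0 < κ) {k : ℕ} (hk : k ≤ κ) (u : Ct κ F) :
    R.ldeW k u = opIter (ffOp R) (List.range κ).reverse
      (opIter (iffOp R) (List.range k) (pre (2 ^ k) u)) := by
  refine eq_of_pre R hk (R.lde_mem hk _) (opIter_ff_mem R hκ hk (iff_small R hk u)) ?_
  rw [pre_ldeW R hk, pre_ff_iff R hk]

/-- **(S10)(a)** Membership by the inverse transform. -/
theorem mem_RS_iff_pre (hκ : 0 < κ) {k : ℕ} (hk : k ≤ κ) (u : Ct κ F) :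
    u ∈ R.RS (2 ^ k) ↔ pre (2 ^ k) (opIter (iffOp R) (List.range κ) u) =
      opIter (iffOp R) (List.range κ) u := by
  have hlt : ∀ j ∈ List.range κ, j < κ := fun j hj => List.mem_range.1 hj
  constructor
  · intro hu
    have h1 : u = R.ldeW k u := by
      refine eq_of_pre R hk hu (R.lde_mem hk _) ?_
      rw [pre_ldeW R hk]
    have h2 : opIter (iffOp R) (List.range κ) u =
        opIter (iffOp R) (List.range k) (pre (2 ^ k) u) := by
      conv_lhs => rw [h1, ldeW_eq R hκ hk]
      exact opIter_iff_ff R hlt _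
    rw [h2, iff_small R hk]
  · intro h
    rw [← opIter_ff_iff R hlt u]
    exact opIter_ff_mem R hκ hk h

theorem pre_eq_iff_bx {k : ℕ} (v : Ct κ F) :
    pre (2 ^ k) v = v ↔ ∀ i, k ≤ i → i < κ → (fun x => bx i x * v x) = 0 := by
  constructor
  · intro h i hi _
    funext x
    show bx i x * v x = 0
    rw [bx_num, ← h]
    unfold pre
    split_ifs with hx
    · rw [(num_lt_iff x).1 hx i hi]; simp
    · simp
  · intro h
    funext x
    unfold pre
    split_ifs with hx
    · rfl
    · rw [num_lt_iff] at hx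
      push Not at hx
      obtain ⟨j, hj, hb⟩ := hx
      have hb' : (num x).testBit j = true := by simpa using hb
      have hjκ : j < κ := by
        by_contra hc
        rw [Nat.testBit_lt_two_pow ((num_lt x).trans_le
          (Nat.pow_le_pow_right (by norm_num) (not_lt.1 hc)))] at hb'
        exact absurd hb' (by simp)
      have := congrFun (h j hj hjκ) x
      simp only [bx_num, hb', bF_true, one_mul, Pi.zero_apply] at this
      exact this.symm

/-- **(S10)(a)** Membership by the inverse transform, with the bits. -/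
theorem mem_RS_iff (hκ : 0 < κ) {k : ℕ} (hk : k ≤ κ) (u : Ct κ F) :
    u ∈ R.RS (2 ^ k) ↔ ∀ i, k ≤ i → i < κ →
      (fun x => bx i x * opIter (iffOp R) (List.range κ) u x) = 0 := by
  rw [mem_RS_iff_pre R hκ hk, pre_eq_iff_bx]

end transform

end Vale.Agent.P330.H16
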