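import Vale.Agent.P330.H780.Stat1
import Vale.Agent.P330.H16.Kinds

/-!
# Semantic identities of the macros of the content program

All statements are identities of contents `Ct κ F`.  `opIter A l u` applies the operators `A j`,
`j ∈ l`, one after the other.
-/

namespace Vale.Agent.P330.H16

open Finset

variable {κ : ℕ} {F : Type}

section iter

variable [Field F]

@[simp] theorem opIter_nil (A : ℕ → Ct κ F → Ct κ F) (u : Ct κ F) : opIter A [] u = u := rfl

@[simp] theorem opIter_cons (A : ℕ → Ct κ F → Ct κ F) (j : ℕ) (l : List ℕ) (u : Ct κ F) :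
    opIter A (j :: l) u = opIter A l (A j u) := rfl

theorem opIter_append (A : ℕ → Ct κ F → Ct κ F) (l l' : List ℕ) (u : Ct κ F) :
    opIter A (l ++ l') u = opIter A l' (opIter A l u) := by
  induction l generalizing u with
  | nil => rfl
  | cons j l ih => exact ih _

/-- Iterated multiplication operators. -/
theorem opIter_mul (f : ℕ → V2 κ → F) (l : List ℕ) (u : Ct κ F) (x : V2 κ) :
    opIter (fun j v y => f j y * v y) l u x = (l.map fun j => f j x).prod * u x := by
  induction l generalizing u with
  | nil => simp
  | cons j l ih =>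
    rw [opIter_cons, ih, List.map_cons, List.prod_cons, mul_left_comm, mul_assoc]

end iter

theorem list_prod_range {A : Type*} [CommMonoid A] (f : ℕ → A) (n : ℕ) :
    ((List.range n).map f).prod = ∏ j ∈ range n, f j := by
  induction n with
  | zero => simp
  | succ n ih => rw [List.range_succ, List.map_append, List.prod_append, ih,
      Finset.prod_range_succ]; simp

/-! ### Bits -/

section bits

variable [Field F]

theorem bx_pt {j p : ℕ} (hj : j < κ) : bx (F := F) j (pt κ p) = bF F (p.testBit j) := by
  unfold bx pt bF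
  rw [dif_pos hj]
  cases p.testBit j <;> simp

theorem bx_eq {j : ℕ} (hj : j < κ) (x : V2 κ) : bx (F := F) j x = bF F ((num x).testBit j) := by
  conv_lhs => rw [← pt_num x]
  exact bx_pt hj

theorem bx_of_le {j : ℕ} (hj : κ ≤ j) (x : V2 κ) : bx (F := F) j x = 0 := by
  unfold bx
  rw [dif_neg (by omega)]

/-- Bits of numbers, as elements of `F`. -/
theorem bx_num (j : ℕ) (x : V2 κ) : bx (F := F) j x = bF F ((num x).testBit j) := by
  by_cases hj : j < κ
  · exact bx_eq hj x
  · rw [bx_of_le (not_lt.1 hj), Nat.testBit_lt_two_pow ((num_lt x).trans_le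
      (Nat.pow_le_pow_right (by norm_num) (not_lt.1 hj)))]
    rfl

@[simp] theorem bF_true : bF F true = 1 := rfl

@[simp] theorem bF_false : bF F false = 0 := rfl

theorem bF_mul_self (b : Bool) : bF F b * bF F b = bF F b := by cases b <;> simp

theorem bF_and (a b : Bool) : bF F (a && b) = bF F a * bF F b := by
  cases a <;> cases b <;> simp

theorem bF_not (R : RSys κ F) (hκ : 0 < κ) (a : Bool) : bF F (!a) = 1 + bF F a := by
  cases a
  · simp
  · simp [R.two hκ]

theorem bF_xor (R : RSys κ F) (hκ : 0 < κ) (a b : Bool) :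
    bF F (Bool.xor a b) = bF F a + bF F b := by
  cases a <;> cases b <;> simp [R.two hκ]

theorem bF_inj {a b : Bool} (h : bF F a = bF F b) : a = b := by
  cases a <;> cases b <;> simp at h ⊢

end bits

/-! ### (S1) Multiplication by an additive function -/

section additive

variable [Field F]

theorem sum_e (x : V2 κ) : x = ∑ j ∈ range κ, if (num x).testBit j then e κ j else 0 := by
  funext i
  rw [Finset.sum_apply]
  rw [Finset.sum_eq_single (i : ℕ)]
  · rw [testBit_num]
    rcases zmod2_cases (x i) with h | h
    · simp [h]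
    · simp [h, e]
  · intro j _ hj
    split_ifs with h
    · unfold e
      rw [if_neg (by omega)]
    · rfl
  · intro h
    exact absurd (mem_range.2 i.2) h

theorem additive_sum {φ : V2 κ → F} (h : ∀ x y, φ (x + y) = φ x + φ y) {ι : Type*} (t : Finset ι)
    (f : ι → V2 κ) : φ (∑ i ∈ t, f i) = ∑ i ∈ t, φ (f i) := by
  classical
  have h0 : φ 0 = 0 := by
    have := h 0 0
    rw [add_zero] at this
    have h2 : φ 0 + 0 = φ 0 + φ 0 := by rw [add_zero]; exact this
    exact (add_left_cancel h2).symm
  induction t using Finset.induction_on with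
  | empty => simp [h0]
  | insert a t ha ih => rw [Finset.sum_insert ha, Finset.sum_insert ha, h, ih]

/-- An additive function is a combination of the bits. -/
theorem additive_eq {φ : V2 κ → F} (h : ∀ x y, φ (x + y) = φ x + φ y) (x : V2 κ) :
    φ x = ∑ j ∈ range κ, φ (e κ j) * bx j x := by
  conv_lhs => rw [sum_e x]
  rw [additive_sum h]
  refine Finset.sum_congr rfl fun j hj => ?_
  rw [bx_num]
  have h0 : φ 0 = 0 := by
    have := h 0 0
    rw [add_zero] at this
    have h2 : φ 0 + 0 = φ 0 + φ 0 := by rw [add_zero]; exact this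
    exact (add_left_cancel h2).symm
  split_ifs with h1
  · rw [h1]; simp
  · rw [Bool.not_eq_true] at h1
    rw [h1, h0]; simp

/-- **(S1)** Multiplication by an additive function. -/
theorem additive_mul {φ : V2 κ → F} (h : ∀ x y, φ (x + y) = φ x + φ y) (u : Ct κ F) (x : V2 κ) :
    φ x * u x = ∑ j ∈ range κ, φ (e κ j) * (bx j x * u x) := by
  rw [additive_eq h x, Finset.sum_mul]
  exact Finset.sum_congr rfl fun j _ => mul_assoc _ _ _

end additive

/-! ### (S2) Restriction to the slots -/

section restr

variable [Field F]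

theorem prod_eq_ite {l : List ℕ} {f : ℕ → F} {p : ℕ → Prop} [DecidablePred p]
    (h : ∀ j ∈ l, f j = if p j then 1 else 0) :
    (l.map f).prod = if ∀ j ∈ l, p j then 1 else 0 := by
  induction l with
  | nil => simp
  | cons j l ih =>
    rw [List.map_cons, List.prod_cons, h j (List.mem_cons_self ..),
      ih fun i hi => h i (List.mem_cons_of_mem _ hi)]
    by_cases h1 : p j
    · simp [h1]
    · simp [h1]

/-- **(S2)** The product of `1 + x_j`, `k ≤ j < κ`. -/
theorem opIter_pre (R : RSys κ F) (hκ : 0 < κ) {k : ℕ} (hk : k ≤ κ) (u : Ct κ F) :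
    opIter (fun j v y => (1 + bx j y) * v y) (List.range' k (κ - k)) u = pre (2 ^ k) u := by
  funext x
  rw [opIter_mul (fun j y => 1 + bx j y)]
  rw [prod_eq_ite (p := fun j => (num x).testBit j = false)]
  · unfold pre
    have key : (∀ j ∈ List.range' k (κ - k), (num x).testBit j = false) ↔ num x < 2 ^ k := by
      constructor
      · intro h
        apply Nat.lt_pow_two_of_testBit
        intro j hj
        by_cases hj2 : j < κ
        · exact h j (by rw [List.mem_range'_1]; omega)
        · exact Nat.testBit_lt_two_pow ((num_lt x).trans_le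
            (Nat.pow_le_pow_right (by norm_num) (not_lt.1 hj2)))
      · intro h j hj
        rw [List.mem_range'_1] at hj
        exact Nat.testBit_lt_two_pow (h.trans_le (Nat.pow_le_pow_right (by norm_num) hj.1))
    by_cases h : num x < 2 ^ k
    · rw [if_pos (key.2 h), if_pos h, one_mul]
    · rw [if_neg (fun h' => h (key.1 h')), if_neg h, zero_mul]
  · intro j _
    rw [bx_num]
    cases (num x).testBit j
    · simp
    · simp [R.two hκ]

end restr

/-! ### (S3) Prefixes -/

section prefixes

variable [Field F]

theorem mod_lt_mod_succ (a t j : ℕ) :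
    a % 2 ^ (j + 1) < t % 2 ^ (j + 1) ↔
      if a.testBit j = t.testBit j then a % 2 ^ j < t % 2 ^ j else t.testBit j = true := by
  have key : ∀ a : ℕ, a % 2 ^ (j + 1) = 2 ^ j * (a.testBit j).toNat + a % 2 ^ j := by
    intro a
    rw [pow_succ, Nat.mod_mul, Nat.toNat_testBit, add_comm]
  rw [key a, key t]
  have h1 : a % 2 ^ j < 2 ^ j := Nat.mod_lt _ (by positivity)
  have h2 : t % 2 ^ j < 2 ^ j := Nat.mod_lt _ (by positivity)
  cases a.testBit j <;> cases t.testBit j <;> simp <;> omega

theorem preR_eq (R : RSys κ F) (hκ : 0 < κ) (h : ℕ) (V : Ct κ F) (j : ℕ) (x : V2 κ) :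
    preR V (fun i => bF F (h.testBit i)) j x =
      if num x % 2 ^ j < h % 2 ^ j then V x else 0 := by
  have h2 := R.two hκ
  induction j with
  | zero => simp [preR, Nat.mod_one]
  | succ j ih =>
    simp only [preR]
    rw [ih, bx_num]
    simp only [mod_lt_mod_succ]
    cases (num x).testBit j <;> cases h.testBit j <;> simp [h2]

/-- **(S3)** The prefix of a data word. -/
theorem preR_pre (R : RSys κ F) (hκ : 0 < κ) {k h : ℕ} (hh : h ≤ 2 ^ k) (u : Ct κ F)
    (x : V2 κ) :
    preR (pre (2 ^ k) u) (fun i => bF F (h.testBit i)) k x +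
      bF F (h.testBit k) * pre (2 ^ k) u x = pre h u x := by
  rw [preR_eq R hκ]
  by_cases hx : num x < 2 ^ k
  · rcases Nat.lt_or_ge h (2 ^ k) with h1 | h1
    · rw [Nat.testBit_lt_two_pow h1, Nat.mod_eq_of_lt h1, Nat.mod_eq_of_lt hx]
      unfold pre
      simp [hx]
    · have h3 : h = 2 ^ k := le_antisymm hh h1
      subst h3
      rw [Nat.mod_self, Nat.testBit_two_pow_self]
      unfold pre
      simp [hx]
  · have h4 : pre (2 ^ k) u x = 0 := by unfold pre; rw [if_neg hx]
    have h5 : pre h u x = 0 := by unfold pre; rw [if_neg (by omega)]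
    rw [h4, h5]
    simp

end prefixes

/-! ### (S4) Reading a content at a point -/

section read

variable [Field F]

/-- The content `u` at the point `pt κ a`, zero elsewhere. -/
def dl (a : ℕ) (u : Ct κ F) : Ct κ F := fun x => if num x = a then u x else 0

theorem opIter_dl (R : RSys κ F) (hκ : 0 < κ) {a : ℕ} (ha : a < 2 ^ κ) (u : Ct κ F) :
    opIter (fun j v y => (1 + bx j y + bF F (a.testBit j)) * v y) (List.range κ) u = dl a u := by
  funext x
  rw [opIter_mul (fun j y => 1 + bx j y + bF F (a.testBit j))]
  rw [prod_eq_ite (p := fun j => (num x).testBit j = a.testBit j)]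
  · unfold dl
    have key : (∀ j ∈ List.range κ, (num x).testBit j = a.testBit j) ↔ num x = a := by
      constructor
      · intro h
        apply Nat.eq_of_testBit_eq
        intro j
        by_cases hj : j < κ
        · exact h j (List.mem_range.2 hj)
        · have hj' := Nat.pow_le_pow_right (n := 2) (by norm_num) (not_lt.1 hj)
          rw [Nat.testBit_lt_two_pow ((num_lt x).trans_le hj'),
            Nat.testBit_lt_two_pow (ha.trans_le hj')]
      · rintro h j -
        rw [h]
    by_cases h : num x = a
    · rw [if_pos (key.2 h), if_pos h, one_mul]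
    · rw [if_neg (fun h' => h (key.1 h')), if_neg h, zero_mul]
  · intro j _
    rw [bx_num]
    cases (num x).testBit j <;> cases a.testBit j <;> simp [R.two hκ]

theorem sum_dl {a : ℕ} (ha : a < 2 ^ κ) (u : Ct κ F) : ∑ x, dl a u x = u (pt κ a) := by
  classical
  rw [Finset.sum_eq_single (pt κ a)]
  · unfold dl
    rw [if_pos (num_pt ha)]
  · intro x _ hx
    unfold dl
    rw [if_neg]
    rintro h
    exact hx (by rw [← h, pt_num])
  · intro h
    exact absurd (Finset.mem_univ _) h

/-- For a slot `a`, the last factors are those of the restriction to the slots. -/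
theorem dl_pre {a k : ℕ} (ha : a < 2 ^ k) (u : Ct κ F) : dl a (pre (2 ^ k) u) = dl a u := by
  funext x
  unfold dl pre
  by_cases h : num x = a
  · simp [h, ha]
  · simp [h]

end read

/-! ### (S5) Multiplication by a Lagrange polynomial -/

section lagr

variable [Field F] (R : RSys κ F)

/-- **(S5)** -/
theorem opIter_L (k p : ℕ) (u : Ct κ F) (x : V2 κ) :
    opIter (fun j v y => v y + R.s j y * v y + R.s j (pt κ p) * v y) (List.range k) u x =
      R.L k p x * u x := by
  have h : (fun (j : ℕ) (v : Ct κ F) (y : V2 κ) => v y + R.s j y * v y + R.s j (pt κ p) * v y) =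
      fun j v y => (1 + R.s j y + R.s j (pt κ p)) * v y := by
    funext j v y
    ring
  rw [h, opIter_mul (fun j y => 1 + R.s j y + R.s j (pt κ p))]
  rw [list_prod_range]
  rfl

end lagr

end Vale.Agent.P330.H16
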