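import Vale.Agent.P330.H16.Top
import Vale.Agent.P330.H780.Sem

/-!
# Evaluation of lists of commands

`kdv` is the value of a kind of commands on contents; `Sol σ l` says that the contents `σ` of the
names satisfy the equations of all commands of `l`; `exists_sol` gives such contents for arbitrary
base contents; `ksem_of` is the link with `compile_spec`.
-/

namespace Vale.Agent.P330.H16

open Finset

variable {κ : ℕ} {F : Type} [Field F] {N : Type}

/-- The value of a kind of commands. -/
def kdv (k : ℕ) (off : Bool → ℕ) (R : RSys κ F) (pub : ℕ → Ct κ F) :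
    Kd F → List (Ct κ F) → Ct κ F
  | .lin l, us => lcV l us
  | .pub p, _ => pub p
  | .smul, us => fun x => us.getD 0 0 0 * us.getD 1 0 x
  | .un m, us => opr k off R m (us.tail.map fun u => u 0) (us.headD 0)

/-- The name `n` has a constant content. -/
def Cst (σ : N → Ct κ F) (n : N) : Prop := ∃ a : F, σ n = fun _ => a

theorem Cst.eq {σ : N → Ct κ F} {n : N} (h : Cst σ n) : σ n = fun _ => σ n 0 := by
  obtain ⟨a, h⟩ := h
  rw [h]

theorem Cst.apply {σ : N → Ct κ F} {n : N} (h : Cst σ n) (x : V2 κ) : σ n x = σ n 0 := by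
  obtain ⟨a, h⟩ := h
  rw [h]

/-- The scalar arguments of a command have constant contents. -/
def ArgOK (σ : N → Ct κ F) (c : Cmd N (Kd F)) : Prop :=
  match c.kd with
  | .lin _ => True
  | .pub _ => True
  | .smul => ∃ a b, c.args = [a, b] ∧ Cst σ a
  | .un _ => ∃ a l, c.args = a :: l ∧ ∀ b ∈ l, Cst σ b

section

variable (k : ℕ) (off : Bool → ℕ) (R : RSys κ F) (pub : ℕ → Ct κ F)

/-- The contents `σ` satisfy the equations of the commands. -/
def Sol (σ : N → Ct κ F) (l : List (Cmd N (Kd F))) : Prop :=
  ∀ c ∈ l, σ c.out = kdv k off R pub c.kd (c.args.map σ)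

variable {k off R pub}

theorem Sol.append {σ : N → Ct κ F} {l l' : List (Cmd N (Kd F))} :
    Sol k off R pub σ (l ++ l') ↔ Sol k off R pub σ l ∧ Sol k off R pub σ l' := by
  unfold Sol
  simp only [List.mem_append]
  exact ⟨fun h => ⟨fun c hc => h c (Or.inl hc), fun c hc => h c (Or.inr hc)⟩,
    fun h c hc => hc.elim (h.1 c) (h.2 c)⟩

theorem Sol.cons {σ : N → Ct κ F} {c : Cmd N (Kd F)} {l : List (Cmd N (Kd F))} :
    Sol k off R pub σ (c :: l) ↔
      σ c.out = kdv k off R pub c.kd (c.args.map σ) ∧ Sol k off R pub σ l := by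
  unfold Sol
  simp

theorem Sol.nil {σ : N → Ct κ F} : Sol k off R pub σ ([] : List (Cmd N (Kd F))) := by
  unfold Sol
  simp

theorem Sol.flatMap {σ : N → Ct κ F} {A : Type} {l : List A} {f : A → List (Cmd N (Kd F))} :
    Sol k off R pub σ (l.flatMap f) ↔ ∀ a ∈ l, Sol k off R pub σ (f a) := by
  unfold Sol
  simp only [List.mem_flatMap]
  exact ⟨fun h a ha c hc => h c ⟨a, ha, hc⟩, fun h c ⟨a, ha, hc⟩ => h a ha c hc⟩

theorem Sol.range {σ : N → Ct κ F} {n : ℕ} {f : ℕ → List (Cmd N (Kd F))} :
    Sol k off R pub σ ((List.range n).flatMap f) ↔ ∀ a < n, Sol k off R pub σ (f a) := by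
  rw [Sol.flatMap]
  simp

variable {mac : UM → List ℕ → Mac F}

/-- The link with `compile_spec`. -/
theorem ksem_of (hm : MacOK k off R pub mac) {σ : N → Ct κ F} {c : Cmd N (Kd F)}
    (h : σ c.out = kdv k off R pub c.kd (c.args.map σ)) (ha : ArgOK σ c) :
    KSem pub (genK mac) c.kd (c.args.map σ) (σ c.out) := by
  obtain ⟨o, kd, args⟩ := c
  simp only at h ⊢
  rw [h]
  cases kd with
  | lin l => exact KSem.lin fun _ => rfl
  | pub p => exact KSem.pub' p rfl
  | smul =>
    obtain ⟨a, b, hab, hc⟩ := ha
    simp only at hab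
    subst hab
    exact KSem.smul hc.eq fun _ => rfl
  | un m =>
    obtain ⟨a, l, hal, hc⟩ := ha
    simp only at hal
    subst hal
    refine KSem.un hm (vs := l.map fun b => σ b 0) ?_ ?_
    · simp only [List.map_map]
      exact List.map_congr_left fun b hb => (hc b hb).eq
    · simp only [kdv, List.map_cons, List.tail_cons, List.headD_cons, List.map_map]
      rfl

/-! ### Existence of a solution -/

variable [DecidableEq N]

/-- The contents after the commands. -/
def evl (k : ℕ) (off : Bool → ℕ) (R : RSys κ F) (pub : ℕ → Ct κ F) :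
    (N → Ct κ F) → List (Cmd N (Kd F)) → N → Ct κ F
  | σ, [] => σ
  | σ, c :: l => evl k off R pub
      (Function.update σ c.out (kdv k off R pub c.kd (c.args.map σ))) l

theorem evl_eq {l : List (Cmd N (Kd F))} {σ : N → Ct κ F} {x : N} (hx : x ∉ outs l) :
    evl k off R pub σ l x = σ x := by
  induction l generalizing σ with
  | nil => rfl
  | cons c l ih =>
    simp only [outs, List.map_cons, List.mem_cons, not_or] at hx
    rw [evl, ih hx.2, Function.update_of_ne hx.1]

theorem sol_evl {l : List (Cmd N (Kd F))} {σ : N → Ct κ F} {D : N → Prop} (hD : WF D l)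
    (hn : (outs l).Nodup) (hd : ∀ x ∈ outs l, ¬ D x) :
    Sol k off R pub (evl k off R pub σ l) l := by
  induction l generalizing σ D with
  | nil => exact Sol.nil
  | cons c l ih =>
    have hn' : c.out ∉ outs l ∧ (outs l).Nodup := by
      simpa [outs] using hn
    rw [Sol.cons]
    constructor
    · simp only [evl]
      rw [evl_eq hn'.1, Function.update_self]
      congr 1
      apply List.map_congr_left
      intro a ha
      have h1 : D a := hD.1 a ha
      have h2 : a ∉ outs (c :: l) := fun h => hd a h h1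
      simp only [outs, List.map_cons, List.mem_cons, not_or] at h2
      rw [evl_eq h2.2, Function.update_of_ne h2.1]
    · refine ih hD.2 hn'.2 ?_
      rintro x hx (h | rfl)
      · exact hd x (by simp only [outs, List.map_cons, List.mem_cons]; exact Or.inr hx) h
      · exact hn'.1 hx

/-- Contents with the equations of all commands, for arbitrary base contents. -/
theorem exists_sol {l : List (Cmd N (Kd F))} {D : N → Prop} (hD : WF D l) (hn : (outs l).Nodup)
    (hd : ∀ x ∈ outs l, ¬ D x) (X : N → Ct κ F) :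
    ∃ σ : N → Ct κ F, (∀ x, D x → σ x = X x) ∧ Sol k off R pub σ l :=
  ⟨evl k off R pub X l, fun x hx => evl_eq fun h => hd x h hx, sol_evl hD hn hd⟩

end

/-- Contents computed by a program with named registers. -/
theorem compile_sol [DecidableEq N] {k : ℕ} {off : Bool → ℕ} {R : RSys κ F} {pub : ℕ → Ct κ F}
    {mac : UM → List ℕ → Mac F} (hm : MacOK k off R pub mac) {σ : N → Ct κ F}
    {l : List (Cmd N (Kd F))} (h : Sol k off R pub σ l) (ha : ∀ c ∈ l, ArgOK σ c)
    {D : N → Prop} (hD : WF D l) {rs : List (Ct κ F)} {env : N → ℕ}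
    (hrs : ∀ x, D x → Has rs (env x) (σ x)) :
    ∃ ex, run pub (compile (genK mac) l env rs.length).2 rs = rs ++ ex ∧
      runOK pub (compile (genK mac) l env rs.length).2 rs ∧
      ∀ x, (D x ∨ x ∈ outs l) → Has (rs ++ ex) ((compile (genK mac) l env rs.length).1 x) (σ x) :=
  compile_spec (fun c hc => ksem_of hm (h c hc) (ha c hc)) hD hrs

end Vale.Agent.P330.H16
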