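import Vale.Agent.P330.H244.Base

/-!
# The static theorem, part 1: the products are exact, the routing is right

* `eq_of_near`: two elements of `RS d` which differ at most at a tenth of the points are equal;
* `P_exact`, `Q_exact`: for contents which pass the checks the products are exact;
* `fw_pt`, `fw_supp`, `fw_L_copy`: the words `fw` are the routed words;
* `prodQ_pt`: the products of the gates, at the slots.
-/

namespace Vale.Agent.P330.H16

open Finset

/-- Two elements of `RS d` which differ at most at a tenth of the points are equal. -/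
theorem eq_of_near {κ : ℕ} {F : Type} [Field F] (R : RSys κ F) {d : ℕ}
    (hd : 10 * d ≤ 9 * 2 ^ κ) {u v : Ct κ F} (hu : u ∈ R.RS d) (hv : v ∈ R.RS d)
    (h : MP.Near u v) : u = v := by
  classical
  by_contra hne
  have h1 : u - v ≠ 0 := sub_ne_zero.2 hne
  have hpos : 0 < 2 ^ κ := by positivity
  have h2 := R.zeros d (u - v) (Submodule.sub_mem _ hu hv) (by omega) h1
  have h3 : (univ.filter fun x => u x ≠ v x).card + (univ.filter fun x => (u - v) x = 0).card =
      2 ^ κ := by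
    have h4 : (univ.filter fun x => (u - v) x = 0) = univ.filter fun x => ¬ (u x ≠ v x) := by
      ext x
      simp [sub_eq_zero]
    rw [h4, Finset.card_filter_add_card_filter_not]
    simp [ZMod.card]
  unfold MP.Near at h
  have h5 : 10 * (univ.filter fun x => u x ≠ v x).card ≤ 2 ^ κ := by
    convert h
  have h6 : (univ.filter fun x => (u - v) x = 0).card < d := by
    convert h2
  omega

theorem RSys.mul_mem {κ : ℕ} {F : Type} [Field F] (R : RSys κ F) {k : ℕ} {u v : Ct κ F}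
    (hu : u ∈ R.RS (2 ^ k)) (hv : v ∈ R.RS (2 ^ k)) :
    (fun x => u x * v x) ∈ R.RS (2 ^ (k + 1)) := by
  have hpos : 0 < 2 ^ k := by positivity
  have e : 2 ^ k - 1 + 1 = 2 ^ k := by omega
  have h := R.mul (2 ^ k - 1) (2 ^ k - 1) u v (by rw [e]; exact hu) (by rw [e]; exact hv)
  exact R.mono _ _ (by rw [pow_succ]; omega) h

namespace MP

variable {M : MP} {F : Type} [Field F] {R : RSys M.κ F}

theorem Good.k_le (hM : M.Good) : M.k ≤ M.κ := by have := hM.hκ; omega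

theorem Good.κ_pos (hM : M.Good) : 0 < M.κ := by have := hM.hκ; omega

theorem Good.lt_κ (hM : M.Good) {p : ℕ} (hp : p < 2 ^ M.k) : p < 2 ^ M.κ :=
  hp.trans_le (Nat.pow_le_pow_right (by norm_num) hM.k_le)

theorem Good.xor_dir (hM : M.Good) {s p : ℕ} (hs : s < M.L) (hp : p < 2 ^ M.k) :
    p ^^^ 2 ^ M.dir s < 2 ^ M.k :=
  Nat.xor_lt_two_pow hp (Nat.pow_lt_pow_right (by norm_num) (hM.dir_lt s hs))

theorem Good.xor_small (hM : M.Good) {p q : ℕ} (hp : p < 2 ^ M.k) (hq : q < 4) :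
    p ^^^ q < 2 ^ M.k := by
  refine Nat.xor_lt_two_pow hp (hq.trans_le ?_)
  calc 4 = 2 ^ 2 := by norm_num
    _ ≤ 2 ^ M.k := Nat.pow_le_pow_right (by norm_num) hM.hk

theorem Good.xor_off (hM : M.Good) {p : ℕ} (z : Bool) (hp : p < 2 ^ M.k) :
    p ^^^ M.off z < 2 ^ M.k := Nat.xor_lt_two_pow hp (hM.off_lt z)

theorem swE_mem (hM : M.Good) (s : ℕ) : M.swE R s ∈ R.RS (2 ^ M.k) := R.lde_mem hM.k_le _

theorem prodP_mem (hM : M.Good) (w : Ct M.κ F) (P : ℕ → Ct M.κ F) (s : ℕ) :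
    M.prodP R w P s ∈ R.RS (2 ^ (M.k + 1)) :=
  R.mul_mem (swE_mem hM s) (R.lde_mem hM.k_le _)

theorem prodQ_mem (hM : M.Good) (w : Ct M.κ F) : M.prodQ R w ∈ R.RS (2 ^ (M.k + 1)) :=
  R.mul_mem (R.lde_mem hM.k_le _) (R.lde_mem hM.k_le _)

theorem Good.deg_ok (hM : M.Good) : 10 * 2 ^ (M.k + 1) ≤ 9 * 2 ^ M.κ := by
  have h := hM.hκ
  have h1 : 2 ^ (M.k + 3) ≤ 2 ^ M.κ := Nat.pow_le_pow_right (by norm_num) h
  have h2 : 2 ^ (M.k + 3) = 4 * 2 ^ (M.k + 1) := by rw [pow_add, pow_add]; ring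
  omega

/-- The products of the stages are exact. -/
theorem Chk.P_exact (hM : M.Good) {c : Cont M.κ F} (h : M.Chk R c) (b : Bool) {s : ℕ}
    (hs : s < M.L) : c.P b s = M.prodP R (c.w b) (c.P b) s :=
  eq_of_near R hM.deg_ok (h.P_RS b s hs) (prodP_mem hM _ _ _) (h.P_eq b s hs)

/-- The products of the gates are exact. -/
theorem Chk.Q_exact (hM : M.Good) {c : Cont M.κ F} (h : M.Chk R c) (b : Bool) :
    c.Q b = M.prodQ R (c.w b) :=
  eq_of_near R hM.deg_ok (h.Q_RS b) (prodQ_mem hM _) (h.Q_eq b)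

/-! ### Routing -/

theorem stage_eq (hM : M.Good) (R : RSys M.κ F) (b : Bool) (u v : F) :
    u + bF F b * (u + v) = if b then v else u := by
  cases b
  · simp [bF]
  · have h : u + u = 0 := R.add_self hM.κ_pos u
    simp only [bF, if_true, one_mul]
    rw [← add_assoc, h, zero_add]

/-- The restriction of the product of a stage, at the slots. -/
theorem pre_P_pt (hM : M.Good) {w : Ct M.κ F} {P : ℕ → Ct M.κ F} {s : ℕ} (hs : s < M.L)
    (hP : P s = M.prodP R w P s) {p : ℕ} (hp : p < 2 ^ M.k) :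
    pre (2 ^ M.k) (P s) (pt M.κ p) =
      bF F (M.sw s p) * (M.fw w P s (pt M.κ p) + M.fw w P s (pt M.κ (p ^^^ 2 ^ M.dir s))) := by
  rw [pre_pt _ (hM.lt_κ hp), if_pos hp, hP]
  unfold prodP swE RSys.ldeW
  rw [R.lde_pt hM.k_le _ hp, R.lde_pt hM.k_le _ hp, e_eq_pt]
  simp only [tr_pt]

/-- The words `fw` are the routed words, on the slots. -/
theorem fw_pt (hM : M.Good) {w : Ct M.κ F} {P : ℕ → Ct M.κ F}
    (hP : ∀ s < M.L, P s = M.prodP R w P s) {s : ℕ} (hs : s ≤ M.L) {p : ℕ} (hp : p < 2 ^ M.k) :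
    M.fw w P s (pt M.κ p) = M.rt (fun y => w (pt M.κ y)) s p := by
  induction s generalizing p with
  | zero => rfl
  | succ s ih =>
    have hs' : s < M.L := by omega
    simp only [fw, rt, stg]
    rw [pre_P_pt hM hs' (hP s hs') hp, stage_eq hM R, ih (by omega) hp,
      ih (by omega) (hM.xor_dir hs' hp)]

theorem fw_supp {w : Ct M.κ F} {P : ℕ → Ct M.κ F} (hw : pre (2 ^ M.k) w = w) (s : ℕ) {x : V2 M.κ}
    (hx : 2 ^ M.k ≤ num x) : M.fw w P s x = 0 := by
  induction s with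
  | zero =>
    rw [fw, ← hw]
    unfold pre
    rw [if_neg (by omega)]
  | succ s ih =>
    simp only [fw, ih]
    unfold pre
    rw [if_neg (by omega), add_zero]

/-- The words `fw` are data words. -/
theorem fw_eq_dw (hM : M.Good) {w : Ct M.κ F} {P : ℕ → Ct M.κ F} (hw : pre (2 ^ M.k) w = w)
    (hP : ∀ s < M.L, P s = M.prodP R w P s) {s : ℕ} (hs : s ≤ M.L) :
    M.fw w P s = dw M.κ M.k (M.rt (fun y => w (pt M.κ y)) s) := by
  funext x
  by_cases hx : num x < 2 ^ M.k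
  · rw [dw, if_pos hx, ← fw_pt hM hP hs hx, pt_num]
  · rw [dw, if_neg hx, fw_supp hw s (not_lt.1 hx)]

theorem fw_L_copy (hM : M.Good) {w : Ct M.κ F} {P : ℕ → Ct M.κ F}
    (hP : ∀ s < M.L, P s = M.prodP R w P s) {p : ℕ} (hp : p < 2 ^ M.k) (hc : M.isCopy p) :
    M.fw w P M.L (pt M.κ p) = w (pt M.κ (M.prev p)) := by
  rw [fw_pt hM hP le_rfl hp]
  exact hM.route F (fun y => w (pt M.κ y)) p hp hc

/-- The products of the gates, at the slots. -/
theorem prodQ_pt (hM : M.Good) (w : Ct M.κ F) {p : ℕ} (hp : p < 2 ^ M.k) :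
    M.prodQ R w (pt M.κ p) =
      if p % 4 = 2 then w (pt M.κ (p ^^^ 2)) * w (pt M.κ (p ^^^ 3)) else 0 := by
  unfold prodQ
  rw [R.ldeW_pt hM.k_le _ hp, R.ldeW_pt hM.k_le _ hp]
  unfold inA inB
  rw [msk_pt _ _ (hM.lt_κ hp), msk_pt _ _ (hM.lt_κ hp), tr_pt, tr_pt]
  unfold isNand
  by_cases h : p % 4 = 2
  · simp [h]
  · simp [h]

end MP

end Vale.Agent.P330.H16
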