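import Vale.Agent.P330.H780.Bits
import Vale.Agent.P330.H874.Wire

/-!
# Routing of words over `V n`

The stages of the routing network, written as words over `V n` with values in a field of
characteristic two: `f_{s+1} = f_s + c_s (f_s + f_s(· + e_{d_s}))` on the subspace `H k`.
-/

namespace Vale.Agent.P330.H780

open H874

variable {n k : ℕ} {F : Type*} [Semiring F]

/-- the element `0` or `1` of `F` -/
def bF (F : Type*) [Semiring F] (b : Bool) : F := if b then 1 else 0

/-- One stage of a routing network on words with values in characteristic two. -/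
theorem stage_eq [CharP F 2] (b : Bool) (u v : F) : u + bF F b * (u + v) = if b then v else u := by
  cases b
  · simp [bF]
  · have h : u + u = 0 := CharTwo.add_self_eq_zero u
    simp only [bF, if_true, one_mul]
    rw [← add_assoc, h, zero_add]

/-- Words which satisfy the equations of the stages on `H k` are the routed words. -/
theorem stW_of_stages {α : Type*} (hk : k ≤ n) {K : ℕ → ℕ} {w : V n → α} {f : ℕ → V n → α}
    (h0 : ∀ x, InH k x → f 0 x = w x)
    (hs : ∀ s < stN k, ∀ x, InH k x → f (s + 1) x =
      if swS k K s (num x) then f s (x + unit n (dirS k s)) else f s x) :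
    ∀ s ≤ stN k, ∀ x, InH k x → f s x = stW k K (fun a => w (vec n a)) s (num x) := by
  intro s
  induction s with
  | zero =>
    intro _ x hx
    rw [h0 x hx]
    simp only [stW, vec_num]
  | succ s ih =>
    intro hle x hx
    have hd : dirS k s < k := dirS_lt (by omega)
    rw [hs s (by omega) x hx, stW_succ, ih (by omega) x hx,
      ih (by omega) _ (hx.add (inH_unit hd)), num_add_unit x (hd.trans_le hk)]

/-- The routed word, as a word over `V n`. -/
def routedV {α : Type*} (src : ℕ → Option ℕ) (k : ℕ) (w : V n → α) (x : V n) : α :=
  routed src k (fun a => w (vec n a)) (num x)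

theorem routedV_of_stages {α : Type*} (hk : k ≤ n) {src : ℕ → Option ℕ} {w : V n → α}
    {f : ℕ → V n → α} (h0 : ∀ x, InH k x → f 0 x = w x)
    (hs : ∀ s < stN k, ∀ x, InH k x → f (s + 1) x =
      if swS k (wireK src k) s (num x) then f s (x + unit n (dirS k s)) else f s x)
    {x : V n} (hx : InH k x) : f (stN k) x = routedV src k w x :=
  stW_of_stages hk h0 hs _ le_rfl x hx

/-- At a copy slot the routed word is the value at the source, if the copy slots before are
right. -/
theorem routedV_eq {α : Type*} {src : ℕ → Option ℕ} (hsrc : IsSrc (2 ^ k) src)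
    (w : V n → α) {x a : ℕ} (hx : x < 2 ^ k) (hxa : src x = some a)
    (h : ∀ y < x, ∀ b, src y = some b → w (vec n y) = w (vec n b)) :
    routed src k (fun a => w (vec n a)) x = w (vec n a) := by
  refine routed_eq hsrc (fun a => w (vec n a)) hx hxa ?_
  intro y hy b hb
  exact h y hy b hb

end Vale.Agent.P330.H780
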