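import Vale.Agent.P330.H780.TopF
import Vale.Agent.P330.W.H118.Macros
import Vale.Agent.P330.H743.TopFin

/-!
# The numbers of hard-wired contents in the content program
-/

set_option linter.unusedSectionVars false

namespace Vale.Agent.P330.H780

open Finset H16 H118

variable {F : Type} [Field F] {κ : ℕ}

/-- If the instruction is a hard-wired content then its number is less than `b`. -/
def PI (b : ℕ) (i : Ins F) : Prop :=
  match i with
  | .pub p => p < b
  | _ => True

/-- All instructions of a macro satisfy `PI`. -/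
def MQ (b : ℕ) (m : Mac F) : Prop := ∀ n r, ∀ i ∈ (m n r).1, PI b i

namespace MQ

variable {b : ℕ}

theorem id : MQ b (idM : Mac F) := by
  intro n r i hi
  simp [idM] at hi

theorem tr (j : ℕ) : MQ b (trM j : Mac F) := by
  intro n r i hi
  simp only [trM, List.mem_singleton] at hi
  subst hi
  trivial

theorem mx (j : ℕ) : MQ b (mxM j : Mac F) := by
  intro n r i hi
  simp only [mxM, List.mem_singleton] at hi
  subst hi
  trivial

theorem sum : MQ b (sumM : Mac F) := by
  intro n r i hi
  simp only [sumM, List.mem_singleton] at hi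
  subst hi
  trivial

theorem sm (c : ℕ) : MQ b (smM c : Mac F) := by
  intro n r i hi
  simp only [smM, List.mem_singleton] at hi
  subst hi
  trivial

theorem comp {m m' : Mac F} (h : MQ b m) (h' : MQ b m') : MQ b (H16.comp m m') := by
  intro n r i hi
  simp only [H16.comp, List.mem_append] at hi
  rcases hi with hi | hi
  · exact h _ _ i hi
  · exact h' _ _ i hi

theorem lcAux {l : List (F × Mac F)} (h : ∀ q ∈ l, MQ b q.2) (n r : ℕ) :
    ∀ i ∈ (H16.lcAux l n r).1, PI b i := by
  induction l generalizing n with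
  | nil => intro i hi; simp [H16.lcAux] at hi
  | cons q l ih =>
    intro i hi
    simp only [H16.lcAux, List.mem_append] at hi
    rcases hi with hi | hi
    · exact h q (List.mem_cons_self ..) _ _ i hi
    · exact ih (fun q hq => h q (List.mem_cons_of_mem _ hq)) _ i hi

theorem lc {l : List (F × Mac F)} (h : ∀ q ∈ l, MQ b q.2) : MQ b (H16.lc l) := by
  intro n r i hi
  simp only [H16.lc, List.mem_append, List.mem_singleton] at hi
  rcases hi with hi | rfl
  · exact lcAux h n r i hi
  · trivial

theorem iter {A : ℕ → Mac F} {l : List ℕ} (h : ∀ j, MQ b (A j)) : MQ b (iterM A l) := by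
  induction l with
  | nil => exact id
  | cons j l ih => exact (h j).comp ih

theorem add2 {u v : Mac F} (ha : MQ b u) (hb : MQ b v) : MQ b (H118.add2 u v) :=
  lc (by simp [ha, hb])

theorem add3 {u v w : Mac F} (ha : MQ b u) (hb : MQ b v) (hc : MQ b w) :
    MQ b (H118.add3 u v w) :=
  lc (by simp [ha, hb, hc])

theorem zero : MQ b (zeroM : Mac F) := lc (by simp)

theorem smG (cs : List ℕ) (j : ℕ) : MQ b (H118.smG cs j : Mac F) := by
  unfold H118.smG
  split_ifs
  · exact sm _
  · exact zero

theorem nx (j : ℕ) : MQ b (nxM j : Mac F) := id.add2 (mx j)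

theorem aff (cs : List ℕ) (j : ℕ) : MQ b (affM cs j : Mac F) := add3 id (mx j) (smG cs j)

theorem bc (j : ℕ) : MQ b (bcM j : Mac F) := id.add2 (tr j)

theorem s (cf : ℕ → ℕ → F) (j : ℕ) : MQ b (sM cf κ j) := by
  refine lc fun q hq => ?_
  simp only [List.mem_map, List.mem_range] at hq
  obtain ⟨i, _, rfl⟩ := hq
  exact mx i

theorem s1 (cf : ℕ → ℕ → F) (cs : List ℕ) (j : ℕ) : MQ b (s1M cf κ cs j) :=
  add3 id (s cf j) (smG cs j)

theorem ifa (cf : ℕ → ℕ → F) (j : ℕ) : MQ b (ifaM cf κ j) := id.add2 ((bc j).comp (s cf j))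

theorem iff (cf : ℕ → ℕ → F) (j : ℕ) : MQ b (iffM cf κ j) :=
  (ifa cf j).add2 (((ifa cf j).add2 (bc j)).comp (mx j))

theorem ff (cf : ℕ → ℕ → F) (j : ℕ) : MQ b (ffM cf κ j) :=
  ((nx j).add2 ((tr j).comp (mx j))).add2 (((mx j).add2 ((tr j).comp (nx j))).comp (s cf j))

theorem h {k : ℕ} : MQ b (hM κ k : Mac F) := iter fun j => nx j

theorem preAux (cs : List ℕ) (m : ℕ) : MQ b (H118.preAux cs m : Mac F) := by
  induction m with
  | zero => exact zero
  | succ m ih => exact ((nx m).comp (smG cs m)).add2 (ih.comp (aff cs m))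

theorem mac (cf : ℕ → ℕ → F) (κ k : ℕ) (off : Bool → ℕ) (m : UM) (cs : List ℕ) :
    MQ b (H118.mac cf κ k off m cs) := by
  cases m with
  | tr j => exact tr j
  | mx j => exact mx j
  | sum => exact sum
  | hh => exact h
  | lde => exact h.comp ((iter fun j => iff cf j).comp (iter fun j => ff cf j))
  | inv => exact iter fun j => iff cf j
  | nand => exact (mx 1).comp (nx 0)
  | k0 => exact (nx 1).comp (nx 0)
  | k1 => exact (nx 1).comp (mx 0)
  | rd0 => exact iter fun j => nx j
  | pre => exact h.comp ((preAux cs k).add2 (smG cs k))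
  | LL => exact iter fun j => s1 cf cs j
  | ch =>
    refine iter fun j => ?_
    split_ifs
    · exact aff cs j
    · exact nx j
  | off z => exact iter fun j => tr j

end MQ

/-- The condition on the numbers in a command. -/
def CQ (b : ℕ) {N : Type} (c : Cmd N (Kd F)) : Prop :=
  match c.kd with
  | .pub p => p < b
  | _ => True

theorem pI_compile (cf : ℕ → ℕ → F) (κ k : ℕ) (off : Bool → ℕ) {b : ℕ}
    {N : Type} [DecidableEq N] {l : List (Cmd N (Kd F))} (hl : ∀ c ∈ l, CQ b c) (env : N → ℕ)
    (n : ℕ) : ∀ i ∈ (compile (genK (H118.mac cf κ k off)) l env n).2, PI b i := by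
  induction l generalizing env n with
  | nil => intro i hi; simp [compile] at hi
  | cons c l ih =>
    intro i hi
    simp only [compile, List.mem_append] at hi
    rcases hi with hi | hi
    · have hc := hl c (List.mem_cons_self ..)
      obtain ⟨o, kd, args⟩ := c
      cases kd with
      | lin a =>
        simp only [genK, List.mem_singleton] at hi
        subst hi
        trivial
      | pub q =>
        simp only [genK, List.mem_singleton] at hi
        subst hi
        exact hc
      | smul =>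
        simp only [genK, List.mem_singleton] at hi
        subst hi
        trivial
      | un m => exact MQ.mac cf κ k off m _ _ _ i hi
    · exact ih (fun c hc => hl c (List.mem_cons_of_mem _ hc)) _ _ i hi

/-! ### The commands of the program -/

/-- The condition on the numbers in a list of commands. -/
def AllQ (b : ℕ) {N : Type} (l : List (Cmd N (Kd F))) : Prop := ∀ c ∈ l, CQ b c

section

variable {N : Type} {b : ℕ}

theorem AllQ.nil : AllQ b ([] : List (Cmd N (Kd F))) ↔ True := by
  unfold AllQ; simp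

theorem AllQ.cons {c : Cmd N (Kd F)} {l : List (Cmd N (Kd F))} :
    AllQ b (c :: l) ↔ CQ b c ∧ AllQ b l := by
  unfold AllQ; simp

theorem AllQ.append {l l' : List (Cmd N (Kd F))} :
    AllQ b (l ++ l') ↔ AllQ b l ∧ AllQ b l' := by
  unfold AllQ
  simp only [List.mem_append]
  exact ⟨fun h => ⟨fun c hc => h c (Or.inl hc), fun c hc => h c (Or.inr hc)⟩,
    fun h c hc => hc.elim (h.1 c) (h.2 c)⟩

theorem AllQ.range {n : ℕ} {f : ℕ → List (Cmd N (Kd F))} :
    AllQ b ((List.range n).flatMap f) ↔ ∀ a < n, AllQ b (f a) := by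
  unfold AllQ
  simp only [List.mem_flatMap, List.mem_range]
  exact ⟨fun h a ha c hc => h c ⟨a, ha, hc⟩, fun h c ⟨a, ha, hc⟩ => h a ha c hc⟩

theorem cq_lin {o : N} {l : List F} {as : List N} :
    CQ b (⟨o, .lin l, as⟩ : Cmd N (Kd F)) ↔ True := Iff.rfl

theorem cq_pub {o : N} {q : ℕ} {as : List N} :
    CQ b (⟨o, .pub q, as⟩ : Cmd N (Kd F)) ↔ q < b := Iff.rfl

theorem cq_smul {o : N} {as : List N} :
    CQ b (⟨o, .smul, as⟩ : Cmd N (Kd F)) ↔ True := Iff.rfl

theorem cq_un {o : N} {m : UM} {as : List N} :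
    CQ b (⟨o, .un m, as⟩ : Cmd N (Kd F)) ↔ True := Iff.rfl

theorem cq_add {o : Nm} {l : List Nm} : CQ b (PP.add (F := F) o l) ↔ True := Iff.rfl

end

theorem allQ_prog (p : PP F) : AllQ (p.L + 1) p.prog := by
  rw [PP.prog, AllQ.range]
  intro a ha
  have hR : ∀ b, AllQ (p.L + 1) (p.prR b) := by
    intro b
    simp only [PP.prR, PP.prR1, PP.prR2, AllQ.cons, AllQ.append, AllQ.range, AllQ.nil, cq_add,
      cq_un, and_true, implies_true]
  have hG1 : ∀ b, AllQ (F := F) (p.L + 1) (PP.prG1 b) := by
    intro b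
    simp only [PP.prG1, AllQ.cons, AllQ.nil, cq_un, and_true]
  have hG2 : ∀ b, AllQ (p.L + 1) (p.prG2 b) := by
    intro b
    simp only [PP.prG2, AllQ.cons, AllQ.range, AllQ.nil, cq_un, and_true, implies_true]
  have hV : ∀ b, AllQ (p.L + 1) (p.prV b) := by
    intro b
    simp only [PP.prV, AllQ.cons, AllQ.nil, cq_un, cq_add, cq_smul, and_true]
  have hU : ∀ m, AllQ (p.L + 1) (p.prU m) := by
    intro m
    simp only [PP.prU, PP.prD, PP.prUs, PP.prU1, PP.prU2, PP.prU3, PP.prA, PP.prE, AllQ.cons,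
      AllQ.append, AllQ.range, AllQ.nil, cq_un, cq_add, cq_lin, cq_smul, and_true,
      implies_true]
  have hN : ∀ m b, AllQ (p.L + 1) (p.prN m b) := by
    intro m b
    simp only [PP.prN, PP.prN1, PP.prN2, PP.prN3, AllQ.cons, AllQ.append, AllQ.range,
      AllQ.nil, cq_un, cq_add, cq_smul, and_true, implies_true]
  have hFF : ∀ d, AllQ (p.L + 1) (p.prF d) := by
    intro d
    simp only [PP.prF, AllQ.cons, AllQ.nil, cq_add, cq_smul, and_true]
  have hT : ∀ d, AllQ (p.L + 1) (p.prT d) := by
    intro d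
    simp only [PP.prT, AllQ.cons, AllQ.range, AllQ.nil, cq_add, cq_smul, and_true, implies_true]
  have hB1 : ∀ d b, AllQ (F := F) (p.L + 1) (PP.prB1 d b) := by
    intro d b
    simp only [PP.prB1, AllQ.cons, AllQ.nil, cq_add, cq_smul, and_true]
  have hB2 : ∀ d b, AllQ (p.L + 1) (p.prB2 d b) := by
    intro d b
    simp only [PP.prB2, AllQ.cons, AllQ.range, AllQ.nil, cq_add, cq_smul, and_true, implies_true]
  have hs1 : AllQ (F := F) (p.L + 1) PP.prS1 := by
    simp only [PP.prS1, AllQ.cons, AllQ.nil, cq_add, cq_smul, cq_pub, cq_lin, cq_un,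
      and_true]
    omega
  have hs2 : AllQ (p.L + 1) p.prS2 := by
    simp only [PP.prS2, AllQ.cons, AllQ.range, AllQ.nil, cq_add, cq_un, and_true,
      implies_true]
  have hs3 : AllQ (p.L + 1) p.prS3 := by
    simp only [PP.prS3, AllQ.cons, AllQ.range, AllQ.nil, cq_add, cq_smul, and_true, implies_true]
  have hs4 : AllQ (p.L + 1) p.prS4 := by
    simp only [PP.prS4, AllQ.cons, AllQ.range, AllQ.nil, cq_add, cq_pub, and_true, true_and]
    intro s hs
    omega
  match a, ha with
  | 0, _ => exact hs1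
  | 1, _ => exact hs2
  | 2, _ => exact hs3
  | 3, _ => exact hs4
  | 4, _ => exact hR _
  | 5, _ => exact hR _
  | 6, _ => exact hG1 _
  | 7, _ => exact hG1 _
  | 8, _ => exact hG2 _
  | 9, _ => exact hG2 _
  | 10, _ => exact hV _
  | 11, _ => exact hV _
  | 12, _ => exact hU _
  | 13, _ => exact hU _
  | 14, _ => exact hN _ _
  | 15, _ => exact hN _ _
  | 16, _ => exact hN _ _
  | 17, _ => exact hN _ _
  | 18, _ => exact hFF _
  | 19, _ => exact hFF _
  | 20, _ => exact hT _
  | 21, _ => exact hT _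
  | 22, _ => exact hB1 _ _
  | 23, _ => exact hB1 _ _
  | 24, _ => exact hB1 _ _
  | 25, _ => exact hB1 _ _
  | 26, _ => exact hB2 _ _
  | 27, _ => exact hB2 _ _
  | 28, _ => exact hB2 _ _
  | 29, _ => exact hB2 _ _
  | n + 30, h30 => omega

/-- **The numbers of hard-wired contents in the content program are at most `L`.** -/
theorem pub_lt_prog (p : PP F) (cf : ℕ → ℕ → F) (κ k : ℕ) (off : Bool → ℕ) (env : Nm → ℕ)
    (n q : ℕ) (hq : Ins.pub q ∈ (compile (genK (H118.mac cf κ k off)) p.prog env n).2) :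
    q < p.L + 1 :=
  pI_compile cf κ k off (allQ_prog p) env n _ hq

theorem pub_lt (M : MP) (R : RSys M.κ F) (q : ℕ) (hq : Ins.pub q ∈ (H743.topP M R).prog) :
    q < M.L + 1 :=
  pub_lt_prog (M.pp R) _ _ _ _ _ _ q hq

end Vale.Agent.P330.H780
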