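import Vale.Agent.P330.H780.Sig

/-!
# The scalars of the content program
-/

namespace Vale.Agent.P330.H16

open Finset

variable {F : Type} [Field F]

namespace PP

variable (p : PP F)

/-- The contents `σ` satisfy the equations of the program, in parts. -/
structure Eqs (off : Bool → ℕ) (R : RSys p.κ F) (pub : ℕ → Ct p.κ F) (σ : Nm → Ct p.κ F) :
    Prop where
  pub0 : pub 0 = fun _ => 1
  eS1 : Sol p.k off R pub σ prS1
  eS2 : Sol p.k off R pub σ p.prS2
  eS3 : Sol p.k off R pub σ p.prS3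
  eS4 : Sol p.k off R pub σ p.prS4
  eR : ∀ b, Sol p.k off R pub σ (p.prR b)
  eG1 : ∀ b, Sol p.k off R pub σ (prG1 b)
  eG2 : ∀ b, Sol p.k off R pub σ (p.prG2 b)
  eV : ∀ b, Sol p.k off R pub σ (p.prV b)
  eD : ∀ m, Sol p.k off R pub σ (p.prD m)
  eU : ∀ m, ∀ s < p.L, Sol p.k off R pub σ (p.prUs m s)
  eA : ∀ m, Sol p.k off R pub σ (p.prA m)
  eE : ∀ m, Sol p.k off R pub σ (prE m)
  eN1 : ∀ m b, Sol p.k off R pub σ (p.prN1 m b)
  eN2 : ∀ m b, Sol p.k off R pub σ (p.prN2 m b)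
  eN3 : ∀ m b, Sol p.k off R pub σ (p.prN3 m b)
  eF : ∀ d, Sol p.k off R pub σ (p.prF d)
  eT : ∀ d, Sol p.k off R pub σ (p.prT d)
  eB1 : ∀ d b, Sol p.k off R pub σ (prB1 d b)
  eB2 : ∀ d b, Sol p.k off R pub σ (p.prB2 d b)

variable {p} {off : Bool → ℕ} {R : RSys p.κ F} {pub : ℕ → Ct p.κ F} {σ : Nm → Ct p.κ F}

theorem Eqs.of (h0 : pub 0 = fun _ => 1) (h : Sol p.k off R pub σ p.prog) :
    p.Eqs off R pub σ := by
  have hs : ∀ a < 30, Sol p.k off R pub σ (p.seg a) := Sol.range.1 h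
  have hR : ∀ b : Bool, Sol p.k off R pub σ (p.prR b) := fun b => by
    cases b
    · exact hs 4 (by norm_num)
    · exact hs 5 (by norm_num)
  have hG1 : ∀ b : Bool, Sol p.k off R pub σ (prG1 b) := fun b => by
    cases b
    · exact hs 6 (by norm_num)
    · exact hs 7 (by norm_num)
  have hG2 : ∀ b : Bool, Sol p.k off R pub σ (p.prG2 b) := fun b => by
    cases b
    · exact hs 8 (by norm_num)
    · exact hs 9 (by norm_num)
  have hV : ∀ b : Bool, Sol p.k off R pub σ (p.prV b) := fun b => by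
    cases b
    · exact hs 10 (by norm_num)
    · exact hs 11 (by norm_num)
  have hU : ∀ b : Bool, Sol p.k off R pub σ (p.prU b) := fun b => by
    cases b
    · exact hs 12 (by norm_num)
    · exact hs 13 (by norm_num)
  have hN : ∀ m b : Bool, Sol p.k off R pub σ (p.prN m b) := fun m b => by
    cases m <;> cases b
    · exact hs 14 (by norm_num)
    · exact hs 15 (by norm_num)
    · exact hs 16 (by norm_num)
    · exact hs 17 (by norm_num)
  have hF : ∀ b : Bool, Sol p.k off R pub σ (p.prF b) := fun b => by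
    cases b
    · exact hs 18 (by norm_num)
    · exact hs 19 (by norm_num)
  have hT : ∀ b : Bool, Sol p.k off R pub σ (p.prT b) := fun b => by
    cases b
    · exact hs 20 (by norm_num)
    · exact hs 21 (by norm_num)
  have hB1 : ∀ m b : Bool, Sol p.k off R pub σ (prB1 m b) := fun m b => by
    cases m <;> cases b
    · exact hs 22 (by norm_num)
    · exact hs 23 (by norm_num)
    · exact hs 24 (by norm_num)
    · exact hs 25 (by norm_num)
  have hB2 : ∀ m b : Bool, Sol p.k off R pub σ (p.prB2 m b) := fun m b => by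
    cases m <;> cases b
    · exact hs 26 (by norm_num)
    · exact hs 27 (by norm_num)
    · exact hs 28 (by norm_num)
    · exact hs 29 (by norm_num)
  simp only [prU, prN, Sol.append, Sol.range] at hU hN
  exact ⟨h0, hs 0 (by norm_num), hs 1 (by norm_num), hs 2 (by norm_num), hs 3 (by norm_num),
    hR, hG1, hG2, hV, fun m => (hU m).1, fun m => (hU m).2.1, fun m => (hU m).2.2.1,
    fun m => (hU m).2.2.2, fun m b => (hN m b).1, fun m b => (hN m b).2.1,
    fun m b => (hN m b).2.2, hF, hT, hB1, hB2⟩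

end PP

/-! ### Linear combinations -/

theorem lcV_ones {κ : ℕ} {N : Type} (σ : N → Ct κ F) (l : List N) :
    lcV (l.map fun _ => (1 : F)) (l.map σ) = fun x => (l.map fun n => σ n x).sum := by
  induction l with
  | nil => rfl
  | cons n l ih =>
    funext x
    simp only [List.map_cons, lcV, ih, List.sum_cons, one_mul]

theorem lcV_map {κ : ℕ} {N : Type} (σ : N → Ct κ F) (c : ℕ → F) (u : ℕ → N) (l : List ℕ) :
    lcV (l.map c) ((l.map u).map σ) = fun x => (l.map fun i => c i * σ (u i) x).sum := by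
  induction l with
  | nil => rfl
  | cons n l ih =>
    funext x
    simp only [List.map_cons, lcV, ih, List.sum_cons]

theorem list_sum_range {A : Type*} [AddCommMonoid A] (f : ℕ → A) (n : ℕ) :
    ((List.range n).map f).sum = ∑ j ∈ range n, f j := by
  induction n with
  | zero => simp
  | succ n ih => rw [List.range_succ, List.map_append, List.sum_append, ih,
      Finset.sum_range_succ]; simp

namespace PP

variable {p : PP F} {off : Bool → ℕ} {R : RSys p.κ F} {pub : ℕ → Ct p.κ F} {σ : Nm → Ct p.κ F}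

theorem kdv_add (l : List Nm) :
    kdv p.k off R pub (.lin (l.map fun _ => (1 : F))) (l.map σ) =
      fun x => (l.map fun n => σ n x).sum := lcV_ones σ l

theorem S1_eqs (h : Sol p.k off R pub σ prS1) :
    σ .one = pub 0 ∧ σ .zero = (fun _ => 0) ∧ σ .zd = chOp 0 (fun _ => 0) (σ .z) ∧
    σ .zc = (fun _ => ∑ x, σ .zd x) ∧ σ (.zb true) = σ .zc ∧
    σ (.zb false) = (fun x => σ .one x + σ .zc x) ∧ σ (.car 0) = σ .one ∧ σ (.bor 0) = σ .one ∧
    σ .zz = fun x => σ .zc 0 * σ .zc x := by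
  simp only [prS1, add, Sol.cons, kdv_add] at h
  simp only [kdv, List.map_cons, List.map_nil, lcV, opr, List.getD_cons_zero,
    List.getD_cons_succ, List.headD_cons, List.sum_cons, List.sum_nil, add_zero] at h
  obtain ⟨h1, h2, h3, h4, h5, h6, h7, h8, h9, -⟩ := h
  exact ⟨h1, h2, h3, h4, h5, h6, h7, h8, h9⟩

theorem S2_eqs (h : Sol p.k off R pub σ p.prS2) {j : ℕ} (hj : j < p.k + 1) :
    σ (.td j) = chOp 0 (fun _ => 0) (σ (.t j)) ∧ σ (.tc j) = (fun _ => ∑ x, σ (.td j) x) ∧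
    σ (.tn j) = fun x => σ .one x + σ (.tc j) x := by
  simp only [prS2, add, Sol.range, Sol.cons, kdv_add] at h
  have h := h j hj
  simp only [kdv, List.map_cons, List.map_nil, opr, List.getD_nil, List.headD_cons,
    List.sum_cons, List.sum_nil, add_zero] at h
  exact ⟨h.1, h.2.1, h.2.2.1⟩

theorem S3_eqs (h : Sol p.k off R pub σ p.prS3) {j : ℕ} (hj : j < p.k + 1) :
    σ (.car (j + 1)) = (fun x => σ (.tc j) 0 * σ (.car j) x) ∧
    σ (.tp j) = (fun x => σ (.tc j) x + σ (.car j) x) ∧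
    σ (.bor (j + 1)) = (fun x => σ (.tn j) 0 * σ (.bor j) x) ∧
    σ (.tm j) = (fun x => σ (.tc j) x + σ (.bor j) x) ∧
    σ (.hx false j) = (fun x => σ (.zb true) 0 * σ (.tc j) x) ∧
    σ (.hx true j) = (fun x => σ (.zb false) 0 * σ (.tc j) x) ∧
    σ (.hb false j) = (fun x => σ (.hx false j) x + if j = p.k then σ (.zb false) x else 0) ∧
    σ (.hb true j) = (fun x => σ (.hx true j) x + if j = p.k then σ (.zb true) x else 0) ∧
    σ (.pb j) = (fun x => if (4 * p.n).testBit j then σ .one x else 0) ∧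
    σ (.tt j) = (fun x => σ (.tc j) 0 * σ (.tc j) x) ∧
    σ (.tk j) = fun x => σ (.tc p.k) 0 * σ (.tc j) x := by
  simp only [prS3, add, Sol.range, Sol.cons, kdv_add] at h
  have h := h j hj
  simp only [kdv, List.map_cons, List.map_nil, List.getD_cons_zero,
    List.getD_cons_succ, List.sum_cons, List.sum_nil, add_zero] at h
  obtain ⟨h1, h2, h3, h4, h5, h6, h7, h8, h9, h10, h11, -⟩ := h
  refine ⟨h1, h2, h3, h4, h5, h6, ?_, ?_, ?_, h10, h11⟩
  · rw [h7]; split_ifs <;> simp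
  · rw [h8]; split_ifs <;> simp
  · rw [h9]; split_ifs <;> simp

theorem S4_eqs (h : Sol p.k off R pub σ p.prS4) :
    σ .t0n = (fun x => σ .one x + σ (.bor (p.k + 1)) x) ∧
    ∀ s < p.L, σ (.sw s) = pub (s + 1) := by
  simp only [prS4, add, Sol.range, Sol.cons, kdv_add] at h
  simp only [kdv, List.map_cons, List.map_nil, List.sum_cons, List.sum_nil, add_zero] at h
  exact ⟨h.1, fun s hs => (h.2 s hs).1⟩

/-- The values of the scalar registers. -/
structure Scal (p : PP F) (pub : ℕ → Ct p.κ F) (σ : Nm → Ct p.κ F) (z : F) (t : ℕ → F) :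
    Prop where
  one : σ .one = fun _ => 1
  zero : σ .zero = fun _ => 0
  zc : σ .zc = fun _ => z
  zb1 : σ (.zb true) = fun _ => z
  zb0 : σ (.zb false) = fun _ => 1 + z
  zz : σ .zz = fun _ => z * z
  tc : ∀ j < p.k + 1, σ (.tc j) = fun _ => t j
  tn : ∀ j < p.k + 1, σ (.tn j) = fun _ => 1 + t j
  car : ∀ j ≤ p.k + 1, σ (.car j) = fun _ => ∏ i ∈ range j, t i
  tp : ∀ j < p.k + 1, σ (.tp j) = fun _ => t j + ∏ i ∈ range j, t i
  bor : ∀ j ≤ p.k + 1, σ (.bor j) = fun _ => ∏ i ∈ range j, (1 + t i)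
  tm : ∀ j < p.k + 1, σ (.tm j) = fun _ => t j + ∏ i ∈ range j, (1 + t i)
  hb0 : ∀ j < p.k + 1, σ (.hb false j) = fun _ => z * t j + if j = p.k then 1 + z else 0
  hb1 : ∀ j < p.k + 1, σ (.hb true j) = fun _ => (1 + z) * t j + if j = p.k then z else 0
  pb : ∀ j < p.k + 1, σ (.pb j) = fun _ => bF F ((4 * p.n).testBit j)
  tt : ∀ j < p.k + 1, σ (.tt j) = fun _ => t j * t j
  tk : ∀ j < p.k + 1, σ (.tk j) = fun _ => t p.k * t j
  t0n : σ .t0n = fun _ => 1 + ∏ i ∈ range (p.k + 1), (1 + t i)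
  sw : ∀ s < p.L, σ (.sw s) = pub (s + 1)

theorem chOp_sum (R : RSys p.κ F) (hκ : 0 < p.κ) (u : Ct p.κ F) :
    ∑ x, chOp 0 (fun _ => (0 : F)) u x = u 0 := by
  rw [chOp_zero R hκ, sum_dl (by positivity), pt_zero]

theorem Eqs.scal (h : p.Eqs off R pub σ) (hκ : 0 < p.κ) :
    Scal p pub σ (σ .z 0) fun j => σ (.t j) 0 := by
  obtain ⟨h1, h2, h3, h4, h5, h6, h7, h8, h9⟩ := S1_eqs h.eS1
  have one : σ .one = fun _ => 1 := h1.trans h.pub0
  have zc : σ .zc = fun _ => σ .z 0 := by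
    rw [h4, h3]
    funext x
    exact chOp_sum R hκ _
  have zb1 : σ (.zb true) = fun _ => σ .z 0 := h5.trans zc
  have zb0 : σ (.zb false) = fun _ => 1 + σ .z 0 := by rw [h6, one, zc]
  have tc : ∀ j < p.k + 1, σ (.tc j) = fun _ => σ (.t j) 0 := by
    intro j hj
    obtain ⟨h10, h11, -⟩ := S2_eqs h.eS2 hj
    rw [h11, h10]
    funext x
    exact chOp_sum R hκ _
  have tn : ∀ j < p.k + 1, σ (.tn j) = fun _ => 1 + σ (.t j) 0 := by
    intro j hj
    rw [(S2_eqs h.eS2 hj).2.2, one, tc j hj]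
  have car : ∀ j ≤ p.k + 1, σ (.car j) = fun _ => ∏ i ∈ range j, σ (.t i) 0 := by
    intro j hj
    induction j with
    | zero => rw [h7, one]; simp
    | succ j ih =>
      rw [(S3_eqs h.eS3 (by omega)).1, ih (by omega), tc j (by omega)]
      funext x
      rw [Finset.prod_range_succ, mul_comm]
  have bor : ∀ j ≤ p.k + 1, σ (.bor j) = fun _ => ∏ i ∈ range j, (1 + σ (.t i) 0) := by
    intro j hj
    induction j with
    | zero => rw [h8, one]; simp
    | succ j ih =>
      rw [(S3_eqs h.eS3 (by omega)).2.2.1, ih (by omega), tn j (by omega)]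
      funext x
      rw [Finset.prod_range_succ, mul_comm]
  refine ⟨one, h2, zc, zb1, zb0, ?_, tc, tn, car, ?_, bor, ?_, ?_, ?_, ?_, ?_, ?_, ?_,
    (S4_eqs h.eS4).2⟩
  · rw [h9, zc]
  · intro j hj
    rw [(S3_eqs h.eS3 hj).2.1, tc j hj, car j (by omega)]
  · intro j hj
    rw [(S3_eqs h.eS3 hj).2.2.2.1, tc j hj, bor j (by omega)]
  · intro j hj
    obtain ⟨-, -, -, -, e5, -, e7, -⟩ := S3_eqs h.eS3 hj
    rw [e7, e5, zb1, zb0, tc j hj]
  · intro j hj
    obtain ⟨-, -, -, -, -, e6, -, e8, -⟩ := S3_eqs h.eS3 hj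
    rw [e8, e6, zb1, zb0, tc j hj]
  · intro j hj
    obtain ⟨-, -, -, -, -, -, -, -, e9, -⟩ := S3_eqs h.eS3 hj
    rw [e9, one]
    funext x
    cases (4 * p.n).testBit j <;> simp
  · intro j hj
    obtain ⟨-, -, -, -, -, -, -, -, -, e10, -⟩ := S3_eqs h.eS3 hj
    rw [e10, tc j hj]
  · intro j hj
    obtain ⟨-, -, -, -, -, -, -, -, -, -, e11⟩ := S3_eqs h.eS3 hj
    rw [e11, tc j hj, tc p.k (by omega)]
  · rw [(S4_eqs h.eS4).1, one, bor _ le_rfl]

end PP

end Vale.Agent.P330.H16
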